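import Mathlib

/-!
P230, block G3: product weights on a finite power and the Chebyshev inequality.
-/

namespace Vale.Agent.P230.H852

open Finset

variable {ι Ω : Type*} [Fintype ι] [DecidableEq ι] [Fintype Ω]

theorem sum_prod_pi (φ : ι → Ω → ℝ) :
    ∑ ω : ι → Ω, ∏ j, φ j (ω j) = ∏ j, ∑ x, φ j x := by
  rw [Finset.prod_univ_sum, Fintype.piFinset_univ]

/-- total mass -/
theorem sum_prod_one {w : ι → Ω → ℝ} (hw : ∀ j, ∑ x, w j x = 1) :
    ∑ ω : ι → Ω, ∏ j, w j (ω j) = 1 := by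
  rw [sum_prod_pi]; simp [hw]

/-- linear expectation -/
theorem sum_prod_lin {w : ι → Ω → ℝ} (hw : ∀ j, ∑ x, w j x = 1) (f : Ω → ℝ) (i : ι) :
    ∑ ω : ι → Ω, (∏ j, w j (ω j)) * f (ω i) = ∑ x, w i x * f x := by
  have h : ∀ ω : ι → Ω, (∏ j, w j (ω j)) * f (ω i)
      = ∏ j, (w j (ω j) * (if j = i then f (ω j) else 1)) := by
    intro ω
    rw [Finset.prod_mul_distrib, Finset.prod_ite_eq' Finset.univ i (fun j => f (ω j))]
    simp
  simp_rw [h]
  rw [sum_prod_pi (fun j x => w j x * (if j = i then f x else 1))]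
  rw [Finset.prod_eq_single i]
  · simp
  · intro j _ hj
    simp [hj, hw]
  · simp

/-- covariance of two coordinates -/
theorem sum_prod_cov {w : ι → Ω → ℝ} (F : ι → Ω → ℝ)
    (hF : ∀ j, ∑ x, w j x * F j x = 0) {i k : ι} (hik : i ≠ k) :
    ∑ ω : ι → Ω, (∏ j, w j (ω j)) * (F i (ω i) * F k (ω k)) = 0 := by
  have h : ∀ ω : ι → Ω, (∏ j, w j (ω j)) * (F i (ω i) * F k (ω k))
      = ∏ j, (w j (ω j) * (if j = i then F j (ω j) else 1) * (if j = k then F j (ω j) else 1)) := by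
    intro ω
    rw [Finset.prod_mul_distrib, Finset.prod_mul_distrib,
      Finset.prod_ite_eq' Finset.univ i (fun j => F j (ω j)),
      Finset.prod_ite_eq' Finset.univ k (fun j => F j (ω j))]
    simp [mul_assoc]
  simp_rw [h]
  rw [sum_prod_pi (fun j x => w j x * (if j = i then F j x else 1) * (if j = k then F j x else 1))]
  apply Finset.prod_eq_zero (Finset.mem_univ i)
  simp [hik, hF]

/-- variance of a sum of centred coordinate functions -/
theorem sum_prod_sq {w : ι → Ω → ℝ} (hw : ∀ j, ∑ x, w j x = 1) (F : ι → Ω → ℝ)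
    (hF : ∀ j, ∑ x, w j x * F j x = 0) :
    ∑ ω : ι → Ω, (∏ j, w j (ω j)) * (∑ j, F j (ω j)) ^ 2 = ∑ j, ∑ x, w j x * F j x ^ 2 := by
  have h : ∀ ω : ι → Ω, (∏ j, w j (ω j)) * (∑ j, F j (ω j)) ^ 2
      = ∑ i, ∑ k, (∏ j, w j (ω j)) * (F i (ω i) * F k (ω k)) := by
    intro ω
    rw [sq, Finset.sum_mul_sum, Finset.mul_sum]
    refine Finset.sum_congr rfl fun i _ => ?_
    rw [Finset.mul_sum]
  simp_rw [h]
  rw [Finset.sum_comm]
  refine Finset.sum_congr rfl fun i _ => ?_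
  rw [Finset.sum_comm, Finset.sum_eq_single i]
  · have := sum_prod_lin hw (fun x => F i x * F i x) i
    rw [this]
    refine Finset.sum_congr rfl fun x _ => by ring
  · intro k _ hk
    exact sum_prod_cov F hF (Ne.symm hk)
  · simp

open Classical in
/-- Chebyshev's inequality for product weights. -/
theorem chebyshev {w : ι → Ω → ℝ} (hw0 : ∀ j x, 0 ≤ w j x) (hw : ∀ j, ∑ x, w j x = 1)
    (f : ι → Ω → ℝ) {V a : ℝ} (ha : 0 < a) (hV : ∑ j, ∑ x, w j x * f j x ^ 2 ≤ V) :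
    ∑ ω : ι → Ω, (if a ≤ |∑ j, f j (ω j) - ∑ j, ∑ x, w j x * f j x| then ∏ j, w j (ω j) else 0)
      ≤ V / a ^ 2 := by
  set m : ι → ℝ := fun j => ∑ x, w j x * f j x with hm
  set F : ι → Ω → ℝ := fun j x => f j x - m j with hFdef
  have hF : ∀ j, ∑ x, w j x * F j x = 0 := by
    intro j
    simp only [hFdef, mul_sub, Finset.sum_sub_distrib]
    rw [← Finset.sum_mul, hw j]
    simp [hm]
  have hvar : ∑ j, ∑ x, w j x * F j x ^ 2 ≤ V := by
    refine le_trans (Finset.sum_le_sum fun j _ => ?_) hV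
    have : ∑ x, w j x * F j x ^ 2 = ∑ x, w j x * f j x ^ 2 - m j ^ 2 := by
      have h1 : ∀ x, w j x * F j x ^ 2
          = w j x * f j x ^ 2 - 2 * m j * (w j x * f j x) + m j ^ 2 * w j x := by
        intro x; simp only [hFdef]; ring
      simp_rw [h1]
      rw [Finset.sum_add_distrib, Finset.sum_sub_distrib, ← Finset.mul_sum, ← Finset.mul_sum, hw j]
      simp only [hm]
      ring
    rw [this]
    nlinarith [sq_nonneg (m j)]
  have key := sum_prod_sq hw F hF
  have hle : a ^ 2 * ∑ ω : ι → Ω,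
      (if a ≤ |∑ j, f j (ω j) - ∑ j, ∑ x, w j x * f j x| then ∏ j, w j (ω j) else 0)
      ≤ ∑ ω : ι → Ω, (∏ j, w j (ω j)) * (∑ j, F j (ω j)) ^ 2 := by
    rw [Finset.mul_sum]
    refine Finset.sum_le_sum fun ω _ => ?_
    have hp : 0 ≤ ∏ j, w j (ω j) := Finset.prod_nonneg fun j _ => hw0 j _
    have hsum : ∑ j, F j (ω j) = ∑ j, f j (ω j) - ∑ j, ∑ x, w j x * f j x := by
      simp only [hFdef, Finset.sum_sub_distrib, hm]
    split_ifs with hc
    · rw [mul_comm]
      apply mul_le_mul_of_nonneg_left _ hp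
      rw [hsum, ← sq_abs (∑ j, f j (ω j) - ∑ j, ∑ x, w j x * f j x)]
      exact pow_le_pow_left₀ ha.le hc 2
    · simp only [mul_zero]
      positivity
  rw [le_div_iff₀ (by positivity), mul_comm]
  exact hle.trans (key.le.trans hvar)

end Vale.Agent.P230.H852
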