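import Vale.Agent.P230.H852.Lift
import Vale.Agent.P230.H852.Prob

/-!
P230, block G3: typical pairs `(u, σ)`, the captured mass `gt u`, and the union bound.
-/

namespace Vale.Agent.P230.H852

open Finset Real

variable {κ : Type*} [Fintype κ] [DecidableEq κ] {P : ℕ} [NeZero P]

/-- typical pairs of a residue vector and a state vector -/
def Typp (A w : ℝ) (b : κ → Bool) (h lam lo hi : ℝ) (D : ℕ) (u : κ → ZMod P) (σ : κ → St) :
    Prop :=
  (∀ j, σ j = St.fr → b j = true ∧ Bal A w (u j)) ∧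
  |∑ j, Real.log (G A (u j)) + h| ≤ lam ∧
  D ≤ (Finset.univ.filter fun j => σ j = St.fr).card ∧
  lo ≤ ∑ j, xlow A (u j) (σ j) ∧ ∑ j, xhigh A (u j) (σ j) ≤ hi

/-- product of the state weights -/
noncomputable def pw (A w : ℝ) (b : κ → Bool) (u : κ → ZMod P) (σ : κ → St) : ℝ :=
  ∏ j, wt A w (b j) (u j) (σ j)

open Classical in
/-- total weight of the pairs satisfying `S` -/
noncomputable def mass (A w : ℝ) (b : κ → Bool) (S : (κ → ZMod P) → (κ → St) → Prop) : ℝ :=
  ∑ u : κ → ZMod P, ∑ σ : κ → St, if S u σ then pw A w b u σ else 0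

open Classical in
/-- the captured mass of the residue vector `u` -/
noncomputable def gt (A w : ℝ) (b : κ → Bool) (h lam lo hi : ℝ) (D : ℕ) (u : κ → ZMod P) : ℝ :=
  ∑ σ : κ → St, if Typp A w b h lam lo hi D u σ then pw A w b u σ else 0

variable {A w : ℝ} {b : κ → Bool} {h lam lo hi : ℝ} {D : ℕ}

theorem pw_nonneg (u : κ → ZMod P) (σ : κ → St) : 0 ≤ pw A w b u σ :=
  Finset.prod_nonneg fun _ _ => wt_nonneg _ _ _

theorem sum_pw (u : κ → ZMod P) : ∑ σ : κ → St, pw A w b u σ = ∏ j, G A (u j) := by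
  unfold pw
  rw [sum_prod_pi (fun j s => wt A w (b j) (u j) s)]
  simp only [sum_wt]

theorem sum_prod_G : ∑ u : κ → ZMod P, ∏ j, G A (u j) = 1 :=
  sum_prod_one (w := fun _ x => G A x) fun _ => sum_G

theorem gt_nonneg (u : κ → ZMod P) : 0 ≤ gt A w b h lam lo hi D u := by
  unfold gt
  refine Finset.sum_nonneg fun σ _ => ?_
  split_ifs
  · exact pw_nonneg _ _
  · exact le_rfl

theorem gt_le (u : κ → ZMod P) : gt A w b h lam lo hi D u ≤ ∏ j, G A (u j) := by
  rw [← sum_pw (A := A) (w := w) (b := b) u]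
  unfold gt
  refine Finset.sum_le_sum fun σ _ => ?_
  split_ifs
  · exact le_rfl
  · exact pw_nonneg _ _

theorem prod_G_pos (u : κ → ZMod P) : 0 < ∏ j, G A (u j) :=
  Finset.prod_pos fun _ _ => G_pos _

theorem log_prod_G (u : κ → ZMod P) :
    Real.log (∏ j, G A (u j)) = ∑ j, Real.log (G A (u j)) :=
  Real.log_prod fun j _ => (G_pos _).ne'

theorem of_gt_ne {u : κ → ZMod P} (hu : gt A w b h lam lo hi D u ≠ 0) :
    |∑ j, Real.log (G A (u j)) + h| ≤ lam := by
  by_contra hc
  apply hu
  unfold gt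
  refine Finset.sum_eq_zero fun σ _ => ?_
  rw [if_neg]
  intro hT
  exact hc hT.2.1

/-- `gt ≤ exp (-h + lam)` -/
theorem gt_le_exp (u : κ → ZMod P) :
    gt A w b h lam lo hi D u ≤ Real.exp (-h + lam) := by
  by_cases hu : gt A w b h lam lo hi D u = 0
  · rw [hu]; exact (Real.exp_pos _).le
  · refine (gt_le u).trans ?_
    rw [← Real.exp_log (prod_G_pos (A := A) u), log_prod_G]
    apply Real.exp_le_exp.mpr
    have := (abs_le.mp (of_gt_ne hu)).2
    linarith

open Classical in
/-- the support has at most `exp (h + lam)` elements -/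
theorem card_supp_le : ((Finset.univ.filter fun u : κ → ZMod P =>
    gt A w b h lam lo hi D u ≠ 0).card : ℝ) ≤ Real.exp (h + lam) := by
  have h1 : ∑ u ∈ Finset.univ.filter (fun u : κ → ZMod P => gt A w b h lam lo hi D u ≠ 0),
      Real.exp (-h - lam) ≤ ∑ u : κ → ZMod P, ∏ j, G A (u j) := by
    refine (Finset.sum_le_sum fun u hu => ?_).trans
      (Finset.sum_le_sum_of_subset_of_nonneg (Finset.subset_univ _)
        fun u _ _ => (prod_G_pos u).le)
    rw [← Real.exp_log (prod_G_pos (A := A) u), log_prod_G]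
    apply Real.exp_le_exp.mpr
    have := (abs_le.mp (of_gt_ne (Finset.mem_filter.mp hu).2)).1
    linarith
  rw [sum_prod_G, Finset.sum_const, nsmul_eq_mul] at h1
  have h2 : Real.exp (h + lam) * Real.exp (-h - lam) = 1 := by
    rw [← Real.exp_add]; simp
  have h3 : 0 < Real.exp (h + lam) := Real.exp_pos _
  calc ((Finset.univ.filter fun u : κ → ZMod P => gt A w b h lam lo hi D u ≠ 0).card : ℝ)
      = (((Finset.univ.filter fun u : κ → ZMod P => gt A w b h lam lo hi D u ≠ 0).card : ℝ)
          * Real.exp (-h - lam)) * Real.exp (h + lam) := by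
        rw [mul_assoc, mul_comm (Real.exp (-h - lam)), h2, mul_one]
    _ ≤ 1 * Real.exp (h + lam) := mul_le_mul_of_nonneg_right h1 h3.le
    _ = Real.exp (h + lam) := one_mul _

/-- additive energy of the captured mass -/
theorem energy_le {q : ℝ}
    (hq : ∑ a : ZMod P, ∑ b : ZMod P, ∑ c : ZMod P, G A a * G A b * G A c * G A (b + c - a) ≤ q) :
    ∑ x : κ → ZMod P, ∑ y : κ → ZMod P, ∑ z : κ → ZMod P,
      gt A w b h lam lo hi D x * gt A w b h lam lo hi D y * gt A w b h lam lo hi D z
        * gt A w b h lam lo hi D (y + z - x) ≤ q ^ Fintype.card κ := by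
  have hq0 : 0 ≤ ∑ a : ZMod P, ∑ b : ZMod P, ∑ c : ZMod P,
      G A a * G A b * G A c * G A (b + c - a) :=
    Finset.sum_nonneg fun a _ => Finset.sum_nonneg fun b _ => Finset.sum_nonneg fun c _ => by
      have := G_pos (A := A) a; have := G_pos (A := A) b; have := G_pos (A := A) c
      have := G_pos (A := A) (b + c - a); positivity
  calc ∑ x : κ → ZMod P, ∑ y : κ → ZMod P, ∑ z : κ → ZMod P,
      gt A w b h lam lo hi D x * gt A w b h lam lo hi D y * gt A w b h lam lo hi D z
        * gt A w b h lam lo hi D (y + z - x)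
      ≤ ∑ x : κ → ZMod P, ∑ y : κ → ZMod P, ∑ z : κ → ZMod P,
        (∏ j, G A (x j)) * (∏ j, G A (y j)) * (∏ j, G A (z j)) * (∏ j, G A ((y + z - x) j)) := by
        refine Finset.sum_le_sum fun x _ => Finset.sum_le_sum fun y _ =>
          Finset.sum_le_sum fun z _ => ?_
        have h0 : ∀ v : κ → ZMod P, 0 ≤ gt A w b h lam lo hi D v := gt_nonneg
        have h1 : ∀ v : κ → ZMod P, 0 ≤ ∏ j, G A (v j) := fun v => (prod_G_pos v).le
        exact mul_le_mul (mul_le_mul (mul_le_mul (gt_le x) (gt_le y) (h0 y) (h1 x)) (gt_le z)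
          (h0 z) (mul_nonneg (h1 x) (h1 y))) (gt_le _) (h0 _)
          (mul_nonneg (mul_nonneg (h1 x) (h1 y)) (h1 z))
    _ = ∑ ω : κ → (ZMod P × ZMod P × ZMod P), ∏ j, (G A (ω j).1 * G A (ω j).2.1 * G A (ω j).2.2
          * G A ((ω j).2.1 + (ω j).2.2 - (ω j).1)) := by
        rw [← Fintype.sum_equiv
          ({ toFun := fun t j => (t.1 j, t.2.1 j, t.2.2 j)
             invFun := fun ω => (fun j => (ω j).1, fun j => (ω j).2.1, fun j => (ω j).2.2)
             left_inv := fun t => rfl
             right_inv := fun ω => rfl } : (κ → ZMod P) × (κ → ZMod P) × (κ → ZMod P) ≃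
            (κ → (ZMod P × ZMod P × ZMod P)))
          (fun t => (∏ j, G A (t.1 j)) * (∏ j, G A (t.2.1 j)) * (∏ j, G A (t.2.2 j))
            * (∏ j, G A ((t.2.1 + t.2.2 - t.1) j)))
          (fun ω => ∏ j, (G A (ω j).1 * G A (ω j).2.1 * G A (ω j).2.2
          * G A ((ω j).2.1 + (ω j).2.2 - (ω j).1)))]
        · rw [Fintype.sum_prod_type]
          refine Finset.sum_congr rfl fun x _ => ?_
          rw [Fintype.sum_prod_type]
        · intro t
          simp only [Finset.prod_mul_distrib]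
          rfl
    _ = ∏ _j : κ, (∑ x : ZMod P × ZMod P × ZMod P, G A x.1 * G A x.2.1 * G A x.2.2
          * G A (x.2.1 + x.2.2 - x.1)) :=
        sum_prod_pi (fun _ (x : ZMod P × ZMod P × ZMod P) => G A x.1 * G A x.2.1 * G A x.2.2
          * G A (x.2.1 + x.2.2 - x.1))
    _ = (∑ a : ZMod P, ∑ b : ZMod P, ∑ c : ZMod P,
          G A a * G A b * G A c * G A (b + c - a)) ^ Fintype.card κ := by
        rw [Finset.prod_const, Finset.card_univ, Fintype.sum_prod_type]
        congr 1
        refine Finset.sum_congr rfl fun x _ => ?_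
        rw [Fintype.sum_prod_type]
    _ ≤ q ^ Fintype.card κ := pow_le_pow_left₀ hq0 hq _

/-- conversion of a mass to a sum over `κ → ZMod P × St` -/
theorem mass_eq (S : (κ → ZMod P) → (κ → St) → Prop) [∀ u σ, Decidable (S u σ)] :
    mass A w b S = ∑ ω : κ → ZMod P × St,
      if S (fun j => (ω j).1) (fun j => (ω j).2) then ∏ j, wt A w (b j) (ω j).1 (ω j).2 else 0 := by
  rw [← Fintype.sum_equiv
    ({ toFun := fun t j => (t.1 j, t.2 j)
       invFun := fun ω => (fun j => (ω j).1, fun j => (ω j).2)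
       left_inv := fun t => rfl
       right_inv := fun ω => rfl } : (κ → ZMod P) × (κ → St) ≃ (κ → ZMod P × St))
    (fun t => if S t.1 t.2 then pw A w b t.1 t.2 else 0)
    (fun ω => if S (fun j => (ω j).1) (fun j => (ω j).2)
      then ∏ j, wt A w (b j) (ω j).1 (ω j).2 else 0)]
  · unfold mass
    rw [Fintype.sum_prod_type]
    refine Finset.sum_congr rfl fun x _ => Finset.sum_congr rfl fun y _ => ?_
    congr
  · intro t
    rfl

theorem mass_true : mass A w b (fun (_ : κ → ZMod P) _ => True) = 1 := by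
  rw [mass_eq]
  simp only [if_true]
  exact sum_prod_one (w := fun j (x : ZMod P × St) => wt A w (b j) x.1 x.2) fun j => sum_wt_all _

theorem mass_nonneg (S : (κ → ZMod P) → (κ → St) → Prop) : 0 ≤ mass A w b S := by
  unfold mass
  refine Finset.sum_nonneg fun u _ => Finset.sum_nonneg fun σ _ => ?_
  split_ifs
  · exact pw_nonneg _ _
  · exact le_rfl

theorem mass_mono {S T : (κ → ZMod P) → (κ → St) → Prop}
    (hST : ∀ u σ, pw A w b u σ ≠ 0 → S u σ → T u σ) : mass A w b S ≤ mass A w b T := by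
  unfold mass
  refine Finset.sum_le_sum fun u _ => Finset.sum_le_sum fun σ _ => ?_
  by_cases h0 : pw A w b u σ = 0
  · simp [h0]
  · by_cases h1 : S u σ
    · rw [if_pos h1, if_pos (hST u σ h0 h1)]
    · rw [if_neg h1]
      split_ifs
      · exact pw_nonneg _ _
      · exact le_rfl

theorem mass_or_le (S T : (κ → ZMod P) → (κ → St) → Prop) :
    mass A w b (fun u σ => S u σ ∨ T u σ) ≤ mass A w b S + mass A w b T := by
  unfold mass
  rw [← Finset.sum_add_distrib]
  refine Finset.sum_le_sum fun u _ => ?_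
  rw [← Finset.sum_add_distrib]
  refine Finset.sum_le_sum fun σ _ => ?_
  have := pw_nonneg (A := A) (w := w) (b := b) u σ
  by_cases h1 : S u σ <;> by_cases h2 : T u σ <;> simp [h1, h2, this]

/-- the total captured mass is the mass of the typical pairs -/
theorem sum_gt : ∑ u : κ → ZMod P, gt A w b h lam lo hi D u
    = mass (P := P) A w b (Typp A w b h lam lo hi D) := rfl

theorem sum_gt_le_one : ∑ u : κ → ZMod P, gt A w b h lam lo hi D u ≤ 1 := by
  rw [sum_gt, ← mass_true (A := A) (w := w) (b := b) (κ := κ) (P := P)]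
  exact mass_mono fun _ _ _ _ => trivial

/-- a pair of nonzero weight is free only on balanced `B`-coordinates -/
theorem free_of_pw_ne {u : κ → ZMod P} {σ : κ → St} (h0 : pw A w b u σ ≠ 0) (j : κ)
    (hj : σ j = St.fr) : b j = true ∧ Bal A w (u j) := by
  by_contra hc
  apply h0
  unfold pw
  apply Finset.prod_eq_zero (Finset.mem_univ j)
  rw [hj]
  show 2 * mm A w (b j) (u j) = 0
  unfold mm
  rw [if_neg hc, mul_zero]

/-- union bound -/
theorem one_sub_le_sum_gt {e1 e2 e3 e4 : ℝ}
    (h1 : mass A w b (fun (u : κ → ZMod P) _ => lam < |∑ j, Real.log (G A (u j)) + h|) ≤ e1)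
    (h2 : mass A w b (fun (_ : κ → ZMod P) σ =>
      (Finset.univ.filter fun j => σ j = St.fr).card < D) ≤ e2)
    (h3 : mass A w b (fun (u : κ → ZMod P) σ => ∑ j, xlow A (u j) (σ j) < lo) ≤ e3)
    (h4 : mass A w b (fun (u : κ → ZMod P) σ => hi < ∑ j, xhigh A (u j) (σ j)) ≤ e4) :
    1 - (e1 + e2 + e3 + e4) ≤ ∑ u : κ → ZMod P, gt A w b h lam lo hi D u := by
  rw [sum_gt]
  have hsum : (1 : ℝ) ≤ mass (P := P) A w b (Typp A w b h lam lo hi D)
      + (mass A w b (fun (u : κ → ZMod P) _ => lam < |∑ j, Real.log (G A (u j)) + h|)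
        + (mass A w b (fun (_ : κ → ZMod P) σ =>
            (Finset.univ.filter fun j => σ j = St.fr).card < D)
          + (mass A w b (fun (u : κ → ZMod P) σ => ∑ j, xlow A (u j) (σ j) < lo)
            + mass A w b (fun (u : κ → ZMod P) σ => hi < ∑ j, xhigh A (u j) (σ j))))) := by
    rw [← mass_true (A := A) (w := w) (b := b) (κ := κ) (P := P)]
    refine le_trans ?_ ((mass_or_le _ _).trans (add_le_add_right ((mass_or_le _ _).trans
      (add_le_add_right ((mass_or_le _ _).trans (add_le_add_right (mass_or_le _ _) _)) _)) _))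
    apply mass_mono
    intro u σ h0 _
    by_cases c1 : lam < |∑ j, Real.log (G A (u j)) + h|
    · exact Or.inr (Or.inl c1)
    by_cases c2 : (Finset.univ.filter fun j => σ j = St.fr).card < D
    · exact Or.inr (Or.inr (Or.inl c2))
    by_cases c3 : ∑ j, xlow A (u j) (σ j) < lo
    · exact Or.inr (Or.inr (Or.inr (Or.inl c3)))
    by_cases c4 : hi < ∑ j, xhigh A (u j) (σ j)
    · exact Or.inr (Or.inr (Or.inr (Or.inr c4)))
    · left
      exact ⟨fun j hj => free_of_pw_ne h0 j hj, not_lt.mp c1, not_lt.mp c2, not_lt.mp c3,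
        not_lt.mp c4⟩
  linarith

end Vale.Agent.P230.H852
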