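import Vale.Agent.P230.H852.Defs

/-!
P230, block G3: elementary asymptotic inequalities.
-/

namespace Vale.Agent.P230.H852

open Filter Real

theorem ev_le (c : ℝ) {s : ℝ} (hs : 0 < s) : ∀ᶠ n : ℕ in atTop, c ≤ (n : ℝ) ^ s :=
  ((tendsto_rpow_atTop hs).comp tendsto_natCast_atTop_atTop).eventually (eventually_ge_atTop c)

theorem ev_log (c : ℝ) {s : ℝ} (hs : 0 < s) : ∀ᶠ n : ℕ in atTop, c * Real.log n ≤ (n : ℝ) ^ s := by
  have h1 : (fun x : ℝ => c * Real.log x) =o[atTop] (fun x : ℝ => x ^ s) :=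
    (isLittleO_log_rpow_atTop hs).const_mul_left c
  have h2 := (h1.bound (c := 1) one_pos)
  have h3 := tendsto_natCast_atTop_atTop (R := ℝ) |>.eventually h2
  filter_upwards [h3] with n hn
  have h4 : |c * Real.log n| ≤ 1 * |(n : ℝ) ^ s| := by simpa using hn
  rw [one_mul, abs_of_nonneg (Real.rpow_nonneg (Nat.cast_nonneg n) s)] at h4
  exact (le_abs_self _).trans h4

theorem AR_sq {n : ℕ} (hn : 1 ≤ n) : AR n ^ 2 = 2.4 * Real.log n := by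
  unfold AR
  apply Real.sq_sqrt
  have : 0 ≤ Real.log n := Real.log_natCast_nonneg n
  positivity

theorem AR_nonneg (n : ℕ) : 0 ≤ AR n := Real.sqrt_nonneg _

/-- `AR n ≤ n ^ s` eventually -/
theorem ev_AR {s : ℝ} (hs : 0 < s) : ∀ᶠ n : ℕ in atTop, AR n ≤ (n : ℝ) ^ s := by
  filter_upwards [ev_log 2.4 (show 0 < 2 * s by linarith), eventually_ge_atTop 1] with n hn hn1
  unfold AR
  apply Real.sqrt_le_iff.mpr
  refine ⟨Real.rpow_nonneg (Nat.cast_nonneg n) s, ?_⟩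
  rw [← Real.rpow_natCast, ← Real.rpow_mul (Nat.cast_nonneg n)]
  have : s * ((2 : ℕ) : ℝ) = 2 * s := by push_cast; ring
  rw [this]
  exact hn

/-- `c ≤ AR n` eventually -/
theorem ev_AR_ge (c : ℝ) : ∀ᶠ n : ℕ in atTop, c ≤ AR n := by
  have h1 : Tendsto (fun n : ℕ => 2.4 * Real.log n) atTop atTop :=
    (Real.tendsto_log_atTop.comp tendsto_natCast_atTop_atTop).const_mul_atTop (by norm_num)
  have h2 : Tendsto (fun n : ℕ => AR n) atTop atTop := Real.tendsto_sqrt_atTop.comp h1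
  exact h2.eventually (eventually_ge_atTop c)

/-- `exp (-AR² * s) = n ^ (-2.4 s)` -/
theorem exp_AR {n : ℕ} (hn : 1 ≤ n) (s : ℝ) :
    Real.exp (AR n ^ 2 * s) = (n : ℝ) ^ (2.4 * s) := by
  have hn0 : (0 : ℝ) < n := by exact_mod_cast hn
  rw [AR_sq hn, Real.rpow_def_of_pos hn0]
  congr 1
  ring

theorem exp_AR2 {n : ℕ} (hn : 1 ≤ n) : Real.exp (-AR n ^ 2 / 2) = (n : ℝ) ^ (-1.2 : ℝ) := by
  have := exp_AR hn (-1 / 2)
  rw [show -AR n ^ 2 / 2 = AR n ^ 2 * (-1 / 2) by ring, this]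
  norm_num

theorem exp_AR8 {n : ℕ} (hn : 1 ≤ n) : Real.exp (-AR n ^ 2 / 8) = (n : ℝ) ^ (-0.3 : ℝ) := by
  have := exp_AR hn (-1 / 8)
  rw [show -AR n ^ 2 / 8 = AR n ^ 2 * (-1 / 8) by ring, this]
  norm_num

theorem exp_AR1 {n : ℕ} (hn : 1 ≤ n) : Real.exp (-AR n ^ 2) = (n : ℝ) ^ (-2.4 : ℝ) := by
  have := exp_AR hn (-1)
  rw [show -AR n ^ 2 = AR n ^ 2 * (-1) by ring, this]
  norm_num

/-- the modulus is large enough -/
theorem exp_le_P {n P : ℕ} (hn : 1 ≤ n) (hP : n ^ 10 ≤ P) :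
    Real.exp (4 * AR n ^ 2) ≤ P := by
  rw [show 4 * AR n ^ 2 = AR n ^ 2 * 4 by ring, exp_AR hn]
  have hn1 : (1 : ℝ) ≤ n := by exact_mod_cast hn
  calc (n : ℝ) ^ (2.4 * 4 : ℝ) ≤ (n : ℝ) ^ (10 : ℝ) :=
        Real.rpow_le_rpow_of_exponent_le hn1 (by norm_num)
    _ = (n : ℝ) ^ (10 : ℕ) := by rw [← Real.rpow_natCast]; norm_num
    _ ≤ P := by exact_mod_cast hP

theorem ev_w : ∀ᶠ n : ℕ in atTop, Real.exp (-AR n ^ 2) ≤ wR n ∧ wR n ≤ 1 / AR n ^ 2 := by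
  filter_upwards [eventually_ge_atTop 1, ev_AR (show (0 : ℝ) < 0.05 by norm_num), ev_AR_ge 1]
    with n hn hA hA1
  have hn1 : (1 : ℝ) ≤ n := by exact_mod_cast hn
  have hn0 : (0 : ℝ) < n := by linarith
  refine ⟨?_, ?_⟩
  · rw [exp_AR1 hn]
    exact Real.rpow_le_rpow_of_exponent_le hn1 (by norm_num)
  · unfold wR
    rw [le_div_iff₀ (by positivity)]
    calc (n : ℝ) ^ (-0.1 : ℝ) * AR n ^ 2 ≤ (n : ℝ) ^ (-0.1 : ℝ) * ((n : ℝ) ^ (0.05 : ℝ)) ^ 2 := by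
          apply mul_le_mul_of_nonneg_left _ (Real.rpow_nonneg hn0.le _)
          exact pow_le_pow_left₀ (AR_nonneg n) hA 2
      _ = 1 := by
          rw [← Real.rpow_natCast, ← Real.rpow_mul hn0.le, ← Real.rpow_add hn0]
          norm_num

end Vale.Agent.P230.H852
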