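import Vale.Agent.P230.H852.Defs

/-!
P230: the facts of block G2 in terms of `(A, P)` only (coordination note 1, (P2)).
-/

namespace Vale.Agent.P230.H852

open Finset Real

/-- entropy deficit `H = log (√(2πe) / δ) - h1` -/
noncomputable def HH (A : ℝ) (P : ℕ) [NeZero P] : ℝ :=
  Real.log (Real.sqrt (2 * π * Real.exp 1) / del A P) - h1 A P

/-- FACTS of block G2 in terms of `(A, P)`. -/
structure Facts (A : ℝ) (P : ℕ) [NeZero P] (c C : ℝ) : Prop where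
  /-- (a) -/
  norm_lo : 1 - 2 * Real.exp (-A ^ 2 / 2) ≤ del A P * NA A P / Real.sqrt (2 * π)
  /-- (a) -/
  norm_hi : del A P * NA A P / Real.sqrt (2 * π) ≤ 1 + Real.exp (-A ^ 2)
  /-- (b) -/
  mom2 : |(∑ k ∈ Finset.Ico (-(P : ℤ)) P, (del A P * k) ^ 2 * gs A P k) / NA A P - 1|
    ≤ 2 * A ^ 2 * Real.exp (-A ^ 2 / 2)
  /-- (c) -/
  mom4 : (∑ k ∈ Finset.Ico (-(P : ℤ)) P, (del A P * k) ^ 4 * gs A P k) / NA A P ≤ 4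
  /-- (d) -/
  log2 : ∑ u : ZMod P, G A u * (Real.log (G A u) + Real.log (NA A P)) ^ 2 ≤ 4
  /-- (e) -/
  energy : ∑ a : ZMod P, ∑ b : ZMod P, ∑ c : ZMod P,
    G A a * G A b * G A c * G A (b + c - a) ≤ 0.205 * del A P
  /-- (f) -/
  ent_lo : c * Real.exp (-A ^ 2 / 8) / A ≤ HH A P
  /-- (f) -/
  ent_hi : HH A P ≤ C * A ^ 2 * Real.exp (-A ^ 2 / 8)
  /-- (g) -/
  bal_lo : ∀ w : ℝ, Real.exp (-A ^ 2) ≤ w → w ≤ 1 / A ^ 2 →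
    c * w * Real.exp (-A ^ 2 / 8) ≤ ∑ u : ZMod P, 2 * mm A w true u
  /-- (g) -/
  bal_hi : ∀ w : ℝ, Real.exp (-A ^ 2) ≤ w → w ≤ 1 / A ^ 2 →
    ∑ u : ZMod P, 2 * mm A w true u ≤ C * w * Real.exp (-A ^ 2 / 8)

/-- Block G2 (P2 form). -/
def S_G2F : Prop := ∃ c C A0 : ℝ, 0 < c ∧ 0 < C ∧ 0 < A0 ∧ ∀ A : ℝ, A0 ≤ A → ∀ P : ℕ,
  ∀ [NeZero P], Real.exp (4 * A ^ 2) ≤ P → Facts A P c C

end Vale.Agent.P230.H852
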