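import Vale.Agent.P230.H852.Cheb
import Vale.Agent.P230.H852.Facts
import Vale.Agent.P230.H852.Ev

/-!
P230, block G3: the captured mass of the typical set.
-/

namespace Vale.Agent.P230.H852

open Finset Filter Real

/-- one-coordinate data for base rank `n`, derived from `Facts` -/
structure Data (n P : ℕ) [NeZero P] (c C : ℝ) : Prop where
  facts : Facts (AR n) P c C
  n_pos : 1 ≤ n
  A_pos : 0 < AR n
  mom2 : |(∑ k ∈ Finset.Ico (-(P : ℤ)) P, (del (AR n) P * k) ^ 2 * gs (AR n) P k) / NA (AR n) P - 1|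
    ≤ 2 * AR n ^ 2 * (n : ℝ) ^ (-1.2 : ℝ)
  bal_lo : c * (n : ℝ) ^ (-0.4 : ℝ) ≤ ∑ u : ZMod P, 2 * mm (AR n) (wR n) true u
  bal_hi : ∑ u : ZMod P, 2 * mm (AR n) (wR n) true u ≤ C * (n : ℝ) ^ (-0.4 : ℝ)

theorem ev_data (c C A0 : ℝ)
    (hF : ∀ A : ℝ, A0 ≤ A → ∀ P : ℕ, ∀ [NeZero P], Real.exp (4 * A ^ 2) ≤ P → Facts A P c C) :
    ∀ᶠ n : ℕ in atTop, ∀ P : ℕ, ∀ [NeZero P], n ^ 10 ≤ P → Data n P c C := by
  filter_upwards [eventually_ge_atTop 1, ev_AR_ge A0, ev_AR_ge 1, ev_w] with n hn hA0 hA1 hw P _ hP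
  have hn1 : (1 : ℝ) ≤ n := by exact_mod_cast hn
  have hn0 : (0 : ℝ) < n := by linarith
  have F := hF (AR n) hA0 P (exp_le_P hn hP)
  have e1 : wR n * Real.exp (-AR n ^ 2 / 8) = (n : ℝ) ^ (-0.4 : ℝ) := by
    rw [exp_AR8 hn]
    unfold wR
    rw [← Real.rpow_add hn0]
    norm_num
  refine ⟨F, hn, by linarith, ?_, ?_, ?_⟩
  · have := F.mom2
    rwa [exp_AR2 hn] at this
  · have := F.bal_lo (wR n) hw.1 hw.2
    rwa [mul_assoc, e1] at this
  · have := F.bal_hi (wR n) hw.1 hw.2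
    rwa [mul_assoc, e1] at this

section

variable {A w : ℝ} {P : ℕ} [NeZero P]

/-- intermediate blocks -/
theorem g3_int_aux {c C : ℝ} (hc : 0 < c) (hC : 0 < C) :
    ∀ᶠ n : ℕ in atTop, ∀ P : ℕ, ∀ [NeZero P], Data n P c C →
      ∀ (κ : Type) [Fintype κ] [DecidableEq κ], Fintype.card κ = n → ∀ b : κ → Bool,
        (n : ℝ) / 2 ≤ (Finset.univ.filter fun j => b j = true).card →
        1 - (n : ℝ) ^ (-0.05 : ℝ) ≤ ∑ u : κ → ZMod P, gt (AR n) (wR n) b (n * h1 (AR n) P)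
          ((n : ℝ) ^ (0.53 : ℝ)) (n - (n : ℝ) ^ (0.53 : ℝ)) (n + (n : ℝ) ^ (0.53 : ℝ))
          ⌈(n : ℝ) ^ (0.59 : ℝ)⌉₊ u := by
  filter_upwards [eventually_ge_atTop 2, ev_AR (show (0 : ℝ) < 0.01 by norm_num),
    ev_le (16 / c) (show (0 : ℝ) < 0.01 by norm_num), ev_le (8 * C) (show (0 : ℝ) < 0.02 by norm_num),
    ev_le 16 (show (0 : ℝ) < 0.09 by norm_num), ev_le (60 + 16 / c) (show (0 : ℝ) < 0.01 by norm_num)]
    with n hn2 hA h1 h2 h3 h4 P _ hD κ _ _ hκ b hb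
  have hn1 : (1 : ℝ) ≤ n := by exact_mod_cast (by omega : 1 ≤ n)
  have hn0 : (0 : ℝ) < n := by linarith
  set x : ℝ := (n : ℝ) with hx
  have hκ' : (Fintype.card κ : ℝ) = x := by rw [hκ]
  set φ : ℝ := ∑ u : ZMod P, 2 * mm (AR n) (wR n) true u with hφ
  have hφlo : c * x ^ (-0.4 : ℝ) ≤ φ := hD.bal_lo
  have hφhi : φ ≤ C * x ^ (-0.4 : ℝ) := hD.bal_hi
  have hA0 : 0 ≤ AR n := AR_nonneg n
  have hw0 : 0 ≤ wR n := Real.rpow_nonneg hn0.le _
  have hφ0 : 0 < φ := lt_of_lt_of_le (by positivity) hφlo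
  -- the number of free coordinates
  set nB : ℝ := ((Finset.univ.filter fun j => b j = true).card : ℝ) with hnB
  set E : ℝ := nB * φ with hE
  have hElo : (c / 2) * x ^ (0.6 : ℝ) ≤ E := by
    have : x ^ (0.6 : ℝ) = x * x ^ (-0.4 : ℝ) := by
      rw [← Real.rpow_one_add' hn0.le (by norm_num)]; norm_num
    rw [this, hE]
    calc c / 2 * (x * x ^ (-0.4 : ℝ)) = (x / 2) * (c * x ^ (-0.4 : ℝ)) := by ring
      _ ≤ nB * φ := mul_le_mul hb hφlo (by positivity) (by positivity)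
  have hE0 : 0 < E := lt_of_lt_of_le (by positivity) hElo
  have hDE : ((⌈x ^ (0.59 : ℝ)⌉₊ : ℕ) : ℝ) ≤ E / 2 := by
    have h5 : ((⌈x ^ (0.59 : ℝ)⌉₊ : ℕ) : ℝ) < x ^ (0.59 : ℝ) + 1 :=
      Nat.ceil_lt_add_one (by positivity)
    have h6 : (1 : ℝ) ≤ x ^ (0.59 : ℝ) := Real.one_le_rpow hn1 (by norm_num)
    have h7 : x ^ (0.6 : ℝ) = x ^ (0.59 : ℝ) * x ^ (0.01 : ℝ) := by
      rw [← Real.rpow_add hn0]; norm_num
    have h8 : (16 : ℝ) ≤ c * x ^ (0.01 : ℝ) := by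
      rw [div_le_iff₀ hc] at h1; linarith
    have h9 : 16 * x ^ (0.59 : ℝ) ≤ c * x ^ (0.6 : ℝ) := by
      rw [h7]
      calc 16 * x ^ (0.59 : ℝ) ≤ (c * x ^ (0.01 : ℝ)) * x ^ (0.59 : ℝ) :=
            mul_le_mul_of_nonneg_right h8 (by positivity)
        _ = c * (x ^ (0.59 : ℝ) * x ^ (0.01 : ℝ)) := by ring
    linarith
  -- windows
  have hlam : (0 : ℝ) < x ^ (0.53 : ℝ) := by positivity
  have hAw : AR n * |wR n| ≤ x ^ (-0.09 : ℝ) := by
    rw [abs_of_nonneg hw0]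
    calc AR n * wR n ≤ x ^ (0.01 : ℝ) * x ^ (-0.1 : ℝ) := mul_le_mul_of_nonneg_right hA hw0
      _ = x ^ (-0.09 : ℝ) := by rw [← Real.rpow_add hn0]; norm_num
  have hsm : x * (2 * AR n ^ 2 * x ^ (-1.2 : ℝ) + φ * (AR n * |wR n|)) ≤ x ^ (0.53 : ℝ) / 2 := by
    have e1 : x * (2 * AR n ^ 2 * x ^ (-1.2 : ℝ)) ≤ x ^ (0.53 : ℝ) / 4 := by
      calc x * (2 * AR n ^ 2 * x ^ (-1.2 : ℝ)) ≤ x * (2 * (x ^ (0.01 : ℝ)) ^ 2 * x ^ (-1.2 : ℝ)) := by
            gcongr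
        _ = 2 * x ^ (-0.18 : ℝ) := by
            rw [← Real.rpow_natCast, ← Real.rpow_mul hn0.le]
            calc x * (2 * x ^ (0.01 * ((2 : ℕ) : ℝ)) * x ^ (-1.2 : ℝ))
                = 2 * (x ^ (1 : ℝ) * x ^ (0.01 * ((2 : ℕ) : ℝ)) * x ^ (-1.2 : ℝ)) := by
                  rw [Real.rpow_one]; ring
              _ = 2 * x ^ (-0.18 : ℝ) := by
                  rw [← Real.rpow_add hn0, ← Real.rpow_add hn0]; norm_num
        _ ≤ x ^ (0.53 : ℝ) / 4 := by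
            have e2 : x ^ (-0.18 : ℝ) * x ^ (0.09 : ℝ) ≤ x ^ (0.53 : ℝ) := by
              rw [← Real.rpow_add hn0]
              exact Real.rpow_le_rpow_of_exponent_le hn1 (by norm_num)
            have e3 : x ^ (-0.18 : ℝ) * 16 ≤ x ^ (-0.18 : ℝ) * x ^ (0.09 : ℝ) :=
              mul_le_mul_of_nonneg_left h3 (by positivity)
            have : 0 < x ^ (-0.18 : ℝ) := by positivity
            linarith
    have e2 : x * (φ * (AR n * |wR n|)) ≤ x ^ (0.53 : ℝ) / 4 := by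
      calc x * (φ * (AR n * |wR n|)) ≤ x * (C * x ^ (-0.4 : ℝ) * x ^ (-0.09 : ℝ)) := by
            gcongr
        _ = C * x ^ (0.51 : ℝ) := by
            calc x * (C * x ^ (-0.4 : ℝ) * x ^ (-0.09 : ℝ))
                = C * (x ^ (1 : ℝ) * x ^ (-0.4 : ℝ) * x ^ (-0.09 : ℝ)) := by
                  rw [Real.rpow_one]; ring
              _ = C * x ^ (0.51 : ℝ) := by
                  rw [← Real.rpow_add hn0, ← Real.rpow_add hn0]; norm_num
        _ ≤ x ^ (0.53 : ℝ) / 4 := by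
            have e3 : x ^ (0.53 : ℝ) = x ^ (0.51 : ℝ) * x ^ (0.02 : ℝ) := by
              rw [← Real.rpow_add hn0]; norm_num
            rw [e3]
            have : 0 < x ^ (0.51 : ℝ) := by positivity
            nlinarith
    rw [mul_add]
    linarith
  have hex : ∀ j, 1 - (2 * AR n ^ 2 * x ^ (-1.2 : ℝ) + φ * (AR n * |wR n|))
      ≤ ex (AR n) (wR n) (b j) P (fun u s => xlow (AR n) u s) := by
    intro j
    rw [ex_low]
    have e1 := (abs_le.mp hD.mom2).1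
    have e2 := sum_mm_abs (w := wR n) (P := P) hA0 (b j)
    linarith
  have hex2 : ∀ j, ex (AR n) (wR n) (b j) P (fun u s => xhigh (AR n) u s)
      ≤ 1 + (2 * AR n ^ 2 * x ^ (-1.2 : ℝ) + φ * (AR n * |wR n|)) := by
    intro j
    rw [ex_high]
    have e1 := (abs_le.mp hD.mom2).2
    have e2 := sum_mm_abs (w := wR n) (P := P) hA0 (b j)
    linarith
  have hlo : (x - x ^ (0.53 : ℝ)) + x ^ (0.53 : ℝ) / 2
      ≤ ∑ j, ex (AR n) (wR n) (b j) P (fun u s => xlow (AR n) u s) := by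
    have : ∑ _j : κ, (1 - (2 * AR n ^ 2 * x ^ (-1.2 : ℝ) + φ * (AR n * |wR n|)))
        ≤ ∑ j, ex (AR n) (wR n) (b j) P (fun u s => xlow (AR n) u s) :=
      Finset.sum_le_sum fun j _ => hex j
    rw [Finset.sum_const, Finset.card_univ, nsmul_eq_mul, hκ'] at this
    linarith
  have hhi : ∑ j, ex (AR n) (wR n) (b j) P (fun u s => xhigh (AR n) u s) + x ^ (0.53 : ℝ) / 2
      ≤ x + x ^ (0.53 : ℝ) := by
    have : ∑ j, ex (AR n) (wR n) (b j) P (fun u s => xhigh (AR n) u s)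
        ≤ ∑ _j : κ, (1 + (2 * AR n ^ 2 * x ^ (-1.2 : ℝ) + φ * (AR n * |wR n|))) :=
      Finset.sum_le_sum fun j _ => hex2 j
    rw [Finset.sum_const, Finset.card_univ, nsmul_eq_mul, hκ'] at this
    linarith
  have hV2 : 2 * ((∑ k ∈ Finset.Ico (-(P : ℤ)) P, (del (AR n) P * k) ^ 4 * gs (AR n) P k)
      / NA (AR n) P) + 2 * (2 * AR n * |wR n|) ^ 2 ≤ 10 := by
    have e1 := hD.facts.mom4
    have e2 : x ^ (-0.09 : ℝ) ≤ 1 / 16 := by
      rw [Real.rpow_neg hn0.le]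
      rw [inv_eq_one_div]
      exact one_div_le_one_div_of_le (by norm_num) h3
    have e3 : 2 * AR n * |wR n| ≤ 1 := by
      have := hAw.trans e2
      linarith
    have e4 : 0 ≤ 2 * AR n * |wR n| := by positivity
    nlinarith
  have key := one_sub_le_sum_gt (A := AR n) (w := wR n) (b := b) (κ := κ) (P := P)
    (h := x * Vale.Agent.P230.H852.h1 (AR n) P) (lam := x ^ (0.53 : ℝ))
    (lo := x - x ^ (0.53 : ℝ)) (hi := x + x ^ (0.53 : ℝ)) (D := ⌈x ^ (0.59 : ℝ)⌉₊)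
    (e1 := x * 4 / (x ^ (0.53 : ℝ)) ^ 2) (e2 := 4 / E)
    (e3 := x * 4 / (x ^ (0.53 : ℝ) / 2) ^ 2) (e4 := x * 10 / (x ^ (0.53 : ℝ) / 2) ^ 2)
    (by
      have := mass_ent (κ := κ) (A := AR n) (w := wR n) (b := b) (P := P) hlam hD.facts.log2
      rwa [hκ'] at this)
    (mass_free hE0 hE hDE)
    (by
      have := mass_low (κ := κ) (A := AR n) (w := wR n) (b := b) (P := P) (half_pos hlam) hlo
        hD.facts.mom4
      rwa [hκ'] at this)
    (by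
      have := mass_high (κ := κ) (A := AR n) (w := wR n) (b := b) (P := P) hA0 (half_pos hlam) hhi
        hV2
      rwa [hκ'] at this)
  refine le_trans ?_ key
  -- numerics
  have f1 : (x ^ (0.53 : ℝ)) ^ 2 = x ^ (1.06 : ℝ) := by
    rw [← Real.rpow_natCast, ← Real.rpow_mul hn0.le]; norm_num
  have f2 : x * 4 / (x ^ (0.53 : ℝ)) ^ 2 = 4 * x ^ (-0.06 : ℝ) := by
    rw [f1, show x ^ (-0.06 : ℝ) = x ^ (1 : ℝ) / x ^ (1.06 : ℝ) by
      rw [← Real.rpow_sub hn0]; norm_num, Real.rpow_one]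
    ring
  have f3 : x * 4 / (x ^ (0.53 : ℝ) / 2) ^ 2 = 4 * (x * 4 / (x ^ (0.53 : ℝ)) ^ 2) := by
    field_simp
    ring
  have f4 : x * 10 / (x ^ (0.53 : ℝ) / 2) ^ 2 = 10 * (x * 4 / (x ^ (0.53 : ℝ)) ^ 2) := by
    field_simp
    norm_num
  have f5 : 4 / E ≤ (8 / c) * x ^ (-0.06 : ℝ) := by
    rw [div_le_iff₀ hE0]
    have e1 : x ^ (-0.06 : ℝ) * x ^ (0.6 : ℝ) = x ^ (0.54 : ℝ) := by
      rw [← Real.rpow_add hn0]; norm_num
    have e2 : (1 : ℝ) ≤ x ^ (0.54 : ℝ) := Real.one_le_rpow hn1 (by norm_num)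
    calc (4 : ℝ) ≤ 4 * x ^ (0.54 : ℝ) := by linarith
      _ = 8 / c * x ^ (-0.06 : ℝ) * (c / 2 * x ^ (0.6 : ℝ)) := by
          rw [← e1]; field_simp; norm_num
      _ ≤ 8 / c * x ^ (-0.06 : ℝ) * E := mul_le_mul_of_nonneg_left hElo (by positivity)
  have f6 : x ^ (-0.05 : ℝ) = x ^ (-0.06 : ℝ) * x ^ (0.01 : ℝ) := by
    rw [← Real.rpow_add hn0]; norm_num
  have f7 : (60 + 16 / c) * x ^ (-0.06 : ℝ) ≤ x ^ (-0.05 : ℝ) := by
    rw [f6, mul_comm]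
    exact mul_le_mul_of_nonneg_left h4 (by positivity)
  rw [f3, f4, f2]
  have f8 : 0 < 8 / c * x ^ (-0.06 : ℝ) := by positivity
  have f9 : (60 + 16 / c) * x ^ (-0.06 : ℝ)
      = 60 * x ^ (-0.06 : ℝ) + 2 * (8 / c * x ^ (-0.06 : ℝ)) := by ring
  linarith

theorem ex_low_false : ex A w false P (fun u s => xlow A u s)
    = (∑ k ∈ Finset.Ico (-(P : ℤ)) P, (del A P * k) ^ 2 * gs A P k) / NA A P := by
  rw [ex_low]
  simp [mm_false]

theorem ex_high_false : ex A w false P (fun u s => xhigh A u s)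
    = (∑ k ∈ Finset.Ico (-(P : ℤ)) P, (del A P * k) ^ 2 * gs A P k) / NA A P := by
  rw [ex_high]
  simp [mm_false]

/-- the last block -/
theorem g3_last_aux (c C : ℝ) :
    ∀ᶠ n : ℕ in atTop, ∀ P : ℕ, ∀ [NeZero P], Data n P c C →
      ∀ R : ℕ, n ≤ R → (R : ℝ) ≤ (n : ℝ) ^ (1.01 : ℝ) →
      ∀ (κ : Type) [Fintype κ] [DecidableEq κ], Fintype.card κ = R →
        3 / 4 ≤ ∑ u : κ → ZMod P, gt (AR n) 0 (fun _ => false) (R * h1 (AR n) P)
          ((R : ℝ) ^ (0.53 : ℝ)) (R - 20 * Real.sqrt R) (R + 20 * Real.sqrt R) 0 u := by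
  filter_upwards [eventually_ge_atTop 2, ev_AR (show (0 : ℝ) < 0.01 by norm_num),
    ev_le 40 (show (0 : ℝ) < 0.06 by norm_num)] with n hn2 hA h1 P _ hD R hnR hR κ _ _ hκ
  have hn1 : (1 : ℝ) ≤ n := by exact_mod_cast (by omega : 1 ≤ n)
  have hn0 : (0 : ℝ) < n := by linarith
  have hnR' : (n : ℝ) ≤ R := by exact_mod_cast hnR
  have hR1 : (1 : ℝ) ≤ R := by linarith
  have hR0 : (0 : ℝ) < R := by linarith
  have hκ' : (Fintype.card κ : ℝ) = R := by rw [hκ]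
  have hA0 : 0 ≤ AR n := AR_nonneg n
  have hsq : Real.sqrt R * Real.sqrt R = R := Real.mul_self_sqrt hR0.le
  have hsq1 : 1 ≤ Real.sqrt R := by
    rw [show (1 : ℝ) = Real.sqrt 1 by simp]; exact Real.sqrt_le_sqrt hR1
  have hsm : (R : ℝ) * (2 * AR n ^ 2 * (n : ℝ) ^ (-1.2 : ℝ)) ≤ 10 * Real.sqrt R := by
    have e1 : (R : ℝ) * (2 * AR n ^ 2 * (n : ℝ) ^ (-1.2 : ℝ)) ≤ 2 := by
      calc (R : ℝ) * (2 * AR n ^ 2 * (n : ℝ) ^ (-1.2 : ℝ))
          ≤ (n : ℝ) ^ (1.01 : ℝ) * (2 * ((n : ℝ) ^ (0.01 : ℝ)) ^ 2 * (n : ℝ) ^ (-1.2 : ℝ)) := by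
            gcongr
        _ = 2 * (n : ℝ) ^ (-0.17 : ℝ) := by
            rw [← Real.rpow_natCast, ← Real.rpow_mul hn0.le]
            calc (n : ℝ) ^ (1.01 : ℝ) * (2 * (n : ℝ) ^ (0.01 * ((2 : ℕ) : ℝ)) * (n : ℝ) ^ (-1.2 : ℝ))
                = 2 * ((n : ℝ) ^ (1.01 : ℝ) * (n : ℝ) ^ (0.01 * ((2 : ℕ) : ℝ))
                    * (n : ℝ) ^ (-1.2 : ℝ)) := by ring
              _ = 2 * (n : ℝ) ^ (-0.17 : ℝ) := by
                  rw [← Real.rpow_add hn0, ← Real.rpow_add hn0]; norm_num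
        _ ≤ 2 * 1 := by
            apply mul_le_mul_of_nonneg_left _ (by norm_num)
            exact Real.rpow_le_one_of_one_le_of_nonpos hn1 (by norm_num)
        _ = 2 := by norm_num
    linarith
  have hlo : ((R : ℝ) - 20 * Real.sqrt R) + 10 * Real.sqrt R
      ≤ ∑ _j : κ, ex (AR n) 0 false P (fun u s => xlow (AR n) u s) := by
    rw [ex_low_false, Finset.sum_const, Finset.card_univ, nsmul_eq_mul, hκ']
    have e1 := (abs_le.mp hD.mom2).1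
    have e2 : (R : ℝ) * (1 - 2 * AR n ^ 2 * (n : ℝ) ^ (-1.2 : ℝ))
        ≤ R * ((∑ k ∈ Finset.Ico (-(P : ℤ)) P, (del (AR n) P * k) ^ 2 * gs (AR n) P k)
          / NA (AR n) P) := mul_le_mul_of_nonneg_left (by linarith) hR0.le
    linarith
  have hhi : ∑ _j : κ, ex (AR n) 0 false P (fun u s => xhigh (AR n) u s) + 10 * Real.sqrt R
      ≤ (R : ℝ) + 20 * Real.sqrt R := by
    rw [ex_high_false, Finset.sum_const, Finset.card_univ, nsmul_eq_mul, hκ']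
    have e1 := (abs_le.mp hD.mom2).2
    have e2 : R * ((∑ k ∈ Finset.Ico (-(P : ℤ)) P, (del (AR n) P * k) ^ 2 * gs (AR n) P k)
          / NA (AR n) P) ≤ (R : ℝ) * (1 + 2 * AR n ^ 2 * (n : ℝ) ^ (-1.2 : ℝ)) :=
      mul_le_mul_of_nonneg_left (by linarith) hR0.le
    linarith
  have hV2 : 2 * ((∑ k ∈ Finset.Ico (-(P : ℤ)) P, (del (AR n) P * k) ^ 4 * gs (AR n) P k)
      / NA (AR n) P) + 2 * (2 * AR n * |(0 : ℝ)|) ^ 2 ≤ 10 := by
    have e1 := hD.facts.mom4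
    simp only [abs_zero, mul_zero]
    linarith
  have key := one_sub_le_sum_gt (A := AR n) (w := 0) (b := fun _ : κ => false) (κ := κ) (P := P)
    (h := R * Vale.Agent.P230.H852.h1 (AR n) P) (lam := (R : ℝ) ^ (0.53 : ℝ))
    (lo := R - 20 * Real.sqrt R) (hi := R + 20 * Real.sqrt R) (D := 0)
    (e1 := R * 4 / ((R : ℝ) ^ (0.53 : ℝ)) ^ 2) (e2 := 0)
    (e3 := R * 4 / (10 * Real.sqrt R) ^ 2) (e4 := R * 10 / (10 * Real.sqrt R) ^ 2)
    (by
      have := mass_ent (κ := κ) (A := AR n) (w := 0) (b := fun _ => false) (P := P)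
        (lam := (R : ℝ) ^ (0.53 : ℝ)) (by positivity) hD.facts.log2
      rwa [hκ'] at this)
    (by
      simp only [not_lt_zero']
      unfold mass
      simp)
    (by
      have := mass_low (κ := κ) (A := AR n) (w := 0) (b := fun _ => false) (P := P)
        (a := 10 * Real.sqrt R) (by positivity) hlo hD.facts.mom4
      rwa [hκ'] at this)
    (by
      have := mass_high (κ := κ) (A := AR n) (w := 0) (b := fun _ => false) (P := P) hA0
        (a := 10 * Real.sqrt R) (by positivity) hhi hV2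
      rwa [hκ'] at this)
  refine le_trans ?_ key
  have f1 : ((R : ℝ) ^ (0.53 : ℝ)) ^ 2 = (R : ℝ) ^ (1.06 : ℝ) := by
    rw [← Real.rpow_natCast, ← Real.rpow_mul hR0.le]; norm_num
  have f2 : (R : ℝ) * 4 / ((R : ℝ) ^ (0.53 : ℝ)) ^ 2 ≤ 1 / 10 := by
    rw [f1, div_le_iff₀ (by positivity)]
    have e1 : (R : ℝ) ^ (1.06 : ℝ) = R * (R : ℝ) ^ (0.06 : ℝ) := by
      rw [← Real.rpow_one_add' hR0.le (by norm_num)]; norm_num
    have e2 : (40 : ℝ) ≤ (R : ℝ) ^ (0.06 : ℝ) :=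
      h1.trans (Real.rpow_le_rpow hn0.le hnR' (by norm_num))
    rw [e1]
    nlinarith
  have f3 : (10 * Real.sqrt (R : ℝ)) ^ 2 = 100 * R := by
    rw [mul_pow, Real.sq_sqrt hR0.le]; norm_num
  rw [f3]
  have f4 : (R : ℝ) * 4 / (100 * R) = 1 / 25 := by field_simp; norm_num
  have f5 : (R : ℝ) * 10 / (100 * R) = 1 / 10 := by field_simp; norm_num
  rw [f4, f5]
  linarith

/-- the number `r` of `B`-coordinates: `exp (h + 3 lam) ≤ P ^ r ≤ P exp (h + 3 lam)`, with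
`h = R h1` and `lam = R ^ 0.53`. -/
theorem exists_r_aux {c C : ℝ} (hc : 0 < c) (hC : 0 < C) :
    ∀ᶠ n : ℕ in atTop, ∀ P : ℕ, ∀ [NeZero P], n ^ 10 ≤ P → Data n P c C →
      ∀ R : ℕ, n ≤ R → ∃ r : ℕ, r ≤ R ∧ (R : ℝ) / 2 ≤ r ∧
        Real.exp (R * h1 (AR n) P + 3 * (R : ℝ) ^ (0.53 : ℝ)) ≤ (P : ℝ) ^ r ∧
        (P : ℝ) ^ r ≤ P * Real.exp (R * h1 (AR n) P + 3 * (R : ℝ) ^ (0.53 : ℝ)) := by
  filter_upwards [eventually_ge_atTop 2, ev_AR (show (0 : ℝ) < 0.01 by norm_num),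
    ev_AR_ge 20, ev_le 6 (show (0 : ℝ) < 0.47 by norm_num),
    ev_le C (show (0 : ℝ) < 0.2 by norm_num), ev_log 11 (show (0 : ℝ) < 1 by norm_num)]
    with n hn2 hA hA20 h6 hCn hlogn P _ hP hD R hnR
  have hn1 : (1 : ℝ) ≤ n := by exact_mod_cast (by omega : 1 ≤ n)
  have hn0 : (0 : ℝ) < n := by linarith
  have hnR' : (n : ℝ) ≤ R := by exact_mod_cast hnR
  have hR1 : (1 : ℝ) ≤ R := by linarith
  have hR0 : (0 : ℝ) < R := by linarith
  have hP0 : (0 : ℝ) < P := by exact_mod_cast NeZero.pos P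
  have hPn : (n : ℝ) ^ (10 : ℕ) ≤ P := by exact_mod_cast hP
  have hA0 : 0 < AR n := hD.A_pos
  set L : ℝ := Real.log P with hL
  have hlogn : 160 ≤ Real.log n := by
    have e1 := AR_sq (by omega : 1 ≤ n)
    have e2 : (20 : ℝ) ^ 2 ≤ AR n ^ 2 := pow_le_pow_left₀ (by norm_num) hA20 2
    linarith
  have hL10 : 10 * Real.log n ≤ L := by
    have := Real.log_le_log (by positivity) hPn
    rw [Real.log_pow] at this
    exact_mod_cast this
  have hL0 : 0 < L := by linarith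
  set K : ℝ := Real.log (Real.sqrt (2 * π * Real.exp 1)) with hK
  have hK0 : 0 ≤ K := by
    apply Real.log_nonneg
    apply Real.one_le_sqrt.mpr
    have h1 := Real.pi_gt_three
    have h2 := Real.add_one_le_exp (1 : ℝ)
    have h3 : (3 : ℝ) * 2 ≤ π * Real.exp 1 :=
      mul_le_mul h1.le (by linarith) (by norm_num) (by linarith)
    linarith
  have hsqrt5 : Real.sqrt (2 * π * Real.exp 1) ≤ 5 := by
    apply Real.sqrt_le_iff.mpr
    refine ⟨by norm_num, ?_⟩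
    have h1 := Real.pi_lt_d2
    have h2 := Real.exp_one_lt_d9
    have h3 := Real.pi_gt_three
    have h4 := Real.exp_pos (1 : ℝ)
    nlinarith
  have hsq0 : 0 < Real.sqrt (2 * π * Real.exp 1) := by
    apply Real.sqrt_pos.mpr
    have := Real.pi_pos
    positivity
  have hKA : K + 1 ≤ Real.log (AR n) := by
    have e1 : K ≤ Real.log 5 := Real.log_le_log hsq0 hsqrt5
    have e2 : Real.log 20 ≤ Real.log (AR n) := Real.log_le_log (by norm_num) hA20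
    have e3 : Real.log 20 = Real.log 5 + 2 * Real.log 2 := by
      rw [show (20 : ℝ) = 5 * 2 ^ 2 by norm_num, Real.log_mul (by norm_num) (by norm_num),
        Real.log_pow]
      norm_num
    have e4 := Real.log_two_gt_d9
    linarith
  have hh1 : h1 (AR n) P = K + L - Real.log (AR n) - HH (AR n) P := by
    unfold HH
    have : Real.log (Real.sqrt (2 * π * Real.exp 1) / del (AR n) P) = K + L - Real.log (AR n) := by
      unfold del
      rw [Real.log_div hsq0.ne' (by positivity), Real.log_div hA0.ne' hP0.ne']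
      ring
    rw [this]
    ring
  have hHH0 : 0 ≤ HH (AR n) P := le_trans (by positivity) hD.facts.ent_lo
  have hHH1 : HH (AR n) P ≤ 1 := by
    refine hD.facts.ent_hi.trans ?_
    rw [exp_AR8 (by omega : 1 ≤ n)]
    calc C * AR n ^ 2 * (n : ℝ) ^ (-0.3 : ℝ)
        ≤ (n : ℝ) ^ (0.2 : ℝ) * ((n : ℝ) ^ (0.01 : ℝ)) ^ 2 * (n : ℝ) ^ (-0.3 : ℝ) := by
          gcongr
      _ = (n : ℝ) ^ (-0.08 : ℝ) := by
          rw [← Real.rpow_natCast, ← Real.rpow_mul hn0.le, ← Real.rpow_add hn0,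
            ← Real.rpow_add hn0]
          norm_num
      _ ≤ 1 := Real.rpow_le_one_of_one_le_of_nonpos hn1 (by norm_num)
  have hlogA : Real.log (AR n) ≤ 0.01 * Real.log n := by
    have := Real.log_le_log hA0 hA
    rwa [Real.log_rpow hn0] at this
  set lam : ℝ := (R : ℝ) ^ (0.53 : ℝ) with hlam
  have hlam0 : 0 < lam := by positivity
  have hlamR : 6 * lam ≤ R := by
    have e1 : (R : ℝ) = lam * (R : ℝ) ^ (0.47 : ℝ) := by
      rw [hlam, ← Real.rpow_add hR0]; norm_num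
    have e2 : (6 : ℝ) ≤ (R : ℝ) ^ (0.47 : ℝ) :=
      h6.trans (Real.rpow_le_rpow hn0.le hnR' (by norm_num))
    calc 6 * lam ≤ (R : ℝ) ^ (0.47 : ℝ) * lam := mul_le_mul_of_nonneg_right e2 hlam0.le
      _ = R := by rw [mul_comm]; exact e1.symm
  set t : ℝ := (R * h1 (AR n) P + 3 * lam) / L with ht
  have htL : t * L = R * h1 (AR n) P + 3 * lam := div_mul_cancel₀ _ hL0.ne'
  have ht1 : t ≤ R := by
    rw [ht, div_le_iff₀ hL0, hh1]
    have : (R : ℝ) * (K + L - Real.log (AR n) - HH (AR n) P) ≤ R * (L - 1) :=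
      mul_le_mul_of_nonneg_left (by linarith) hR0.le
    have e3 : 3 * lam ≤ R := by linarith only [hlamR, hlam0]
    calc (R : ℝ) * (K + L - Real.log (AR n) - HH (AR n) P) + 3 * lam ≤ R * (L - 1) + R :=
          add_le_add this e3
      _ = R * L := by ring
  have ht2 : (R : ℝ) / 2 ≤ t := by
    rw [ht, le_div_iff₀ hL0, hh1]
    have : (R : ℝ) * (L / 2) ≤ R * (K + L - Real.log (AR n) - HH (AR n) P) :=
      mul_le_mul_of_nonneg_left (by linarith) hR0.le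
    linarith
  have ht0 : 0 ≤ t := le_trans (by positivity) ht2
  have hPr : ∀ r : ℕ, (P : ℝ) ^ r = Real.exp (r * L) := by
    intro r
    rw [hL, ← Real.log_pow, Real.exp_log (by positivity)]
  refine ⟨⌈t⌉₊, Nat.ceil_le.mpr (by exact_mod_cast ht1), ht2.trans (Nat.le_ceil t), ?_, ?_⟩
  · rw [hPr, ← htL]
    exact Real.exp_le_exp.mpr (mul_le_mul_of_nonneg_right (Nat.le_ceil t) hL0.le)
  · rw [hPr, ← htL]
    have e1 : ((⌈t⌉₊ : ℕ) : ℝ) * L ≤ (t + 1) * L :=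
      mul_le_mul_of_nonneg_right (Nat.ceil_lt_add_one ht0).le hL0.le
    have e2 : (P : ℝ) * Real.exp (t * L) = Real.exp ((t + 1) * L) := by
      rw [add_mul, one_mul, Real.exp_add, hL, Real.exp_log hP0, mul_comm]
    rw [e2]
    exact Real.exp_le_exp.mpr e1

end

/-- G3: everything the block step needs, from the one-coordinate facts G2. -/
theorem g3 (hG2 : S_G2F) : ∃ c C : ℝ, 0 < c ∧ 0 < C ∧ ∃ R0 : ℕ, ∀ n : ℕ, R0 ≤ n →
    ∀ P : ℕ, ∀ [NeZero P], n ^ 10 ≤ P →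
      Data n P c C ∧
      (∀ (κ : Type) [Fintype κ] [DecidableEq κ], Fintype.card κ = n → ∀ b : κ → Bool,
        (n : ℝ) / 2 ≤ (Finset.univ.filter fun j => b j = true).card →
        1 - (n : ℝ) ^ (-0.05 : ℝ) ≤ ∑ u : κ → ZMod P, gt (AR n) (wR n) b (n * h1 (AR n) P)
          ((n : ℝ) ^ (0.53 : ℝ)) (n - (n : ℝ) ^ (0.53 : ℝ)) (n + (n : ℝ) ^ (0.53 : ℝ))
          ⌈(n : ℝ) ^ (0.59 : ℝ)⌉₊ u) ∧
      (∀ R : ℕ, n ≤ R → (R : ℝ) ≤ (n : ℝ) ^ (1.01 : ℝ) →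
        ∀ (κ : Type) [Fintype κ] [DecidableEq κ], Fintype.card κ = R →
          3 / 4 ≤ ∑ u : κ → ZMod P, gt (AR n) 0 (fun _ => false) (R * h1 (AR n) P)
            ((R : ℝ) ^ (0.53 : ℝ)) (R - 20 * Real.sqrt R) (R + 20 * Real.sqrt R) 0 u) ∧
      (∀ R : ℕ, n ≤ R → ∃ r : ℕ, r ≤ R ∧ (R : ℝ) / 2 ≤ r ∧
        Real.exp (R * h1 (AR n) P + 3 * (R : ℝ) ^ (0.53 : ℝ)) ≤ (P : ℝ) ^ r ∧
        (P : ℝ) ^ r ≤ P * Real.exp (R * h1 (AR n) P + 3 * (R : ℝ) ^ (0.53 : ℝ))) := by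
  obtain ⟨c, C, A0, hc, hC, _, hF⟩ := hG2
  refine ⟨c, C, hc, hC, ?_⟩
  have h := (ev_data c C A0 hF).and ((g3_int_aux hc hC).and
    ((g3_last_aux c C).and (exists_r_aux hc hC)))
  obtain ⟨R0, hR0⟩ := Filter.eventually_atTop.mp h
  refine ⟨R0, fun n hn P _ hP => ?_⟩
  obtain ⟨h1, h2, h3, h4⟩ := hR0 n hn
  have hD := h1 P hP
  exact ⟨hD, h2 P hD, h3 P hD, h4 P hP hD⟩

end Vale.Agent.P230.H852
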