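import Mathlib

/-!
P230, part G of helper925's blueprint: one-coordinate folded discrete Gaussian (G2) and states.

`A` is the spacing, `P` the (prime) modulus, `del A P = A / P`.  For `u : ZMod P` the two lifts are
`u.val` and `u.val - P`.
-/

namespace Vale.Agent.P230.H852

open Finset Real

/-- `δ = A / P`. -/
noncomputable def del (A : ℝ) (P : ℕ) : ℝ := A / P

/-- unnormalised Gaussian weight of the lift `k` -/
noncomputable def gs (A : ℝ) (P : ℕ) (k : ℤ) : ℝ := Real.exp (-(del A P * k) ^ 2 / 2)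

/-- normalisation -/
noncomputable def NA (A : ℝ) (P : ℕ) : ℝ := ∑ k ∈ Finset.Ico (-(P : ℤ)) P, gs A P k

/-- the two lifts of a residue -/
def k0 {P : ℕ} (u : ZMod P) : ℤ := u.val

/-- the two lifts of a residue -/
def k1 {P : ℕ} (u : ZMod P) : ℤ := (u.val : ℤ) - P

/-- weight of the lift `k0 u` -/
noncomputable def q0 (A : ℝ) {P : ℕ} (u : ZMod P) : ℝ := gs A P (k0 u) / NA A P

/-- weight of the lift `k1 u` -/
noncomputable def q1 (A : ℝ) {P : ℕ} (u : ZMod P) : ℝ := gs A P (k1 u) / NA A P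

/-- folded weight of a residue -/
noncomputable def G (A : ℝ) {P : ℕ} (u : ZMod P) : ℝ := q0 A u + q1 A u

/-- balanced residues: `|δ u - A / 2| ≤ w` -/
def Bal (A w : ℝ) {P : ℕ} (u : ZMod P) : Prop := |del A P * (u.val : ℝ) - A / 2| ≤ w

open Classical in
/-- `mm = min (q0, q1)` on balanced residues of `B`-coordinates (`b = true`), `0` otherwise -/
noncomputable def mm (A w : ℝ) (b : Bool) {P : ℕ} (u : ZMod P) : ℝ :=
  if b = true ∧ Bal A w u then min (q0 A u) (q1 A u) else 0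

/-- states of a coordinate: a fixed lift, or free -/
inductive St : Type
  | l0
  | l1
  | fr
  deriving DecidableEq

instance : Fintype St := ⟨{St.l0, St.l1, St.fr}, by intro x; cases x <;> simp⟩

/-- weight of a state -/
noncomputable def wt (A w : ℝ) (b : Bool) {P : ℕ} (u : ZMod P) : St → ℝ
  | St.l0 => q0 A u - mm A w b u
  | St.l1 => q1 A u - mm A w b u
  | St.fr => 2 * mm A w b u

/-- smallest square `x ^ 2` over the lifts in a state -/
noncomputable def xlow (A : ℝ) {P : ℕ} (u : ZMod P) : St → ℝ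
  | St.l0 => (del A P * k0 u) ^ 2
  | St.l1 => (del A P * k1 u) ^ 2
  | St.fr => min ((del A P * k0 u) ^ 2) ((del A P * k1 u) ^ 2)

/-- largest square `x ^ 2` over the lifts in a state -/
noncomputable def xhigh (A : ℝ) {P : ℕ} (u : ZMod P) : St → ℝ
  | St.l0 => (del A P * k0 u) ^ 2
  | St.l1 => (del A P * k1 u) ^ 2
  | St.fr => max ((del A P * k0 u) ^ 2) ((del A P * k1 u) ^ 2)

/-- the spacing for base rank `Ra` -/
noncomputable def AR (Ra : ℕ) : ℝ := Real.sqrt (2.4 * Real.log Ra)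

/-- the width of the balanced window for base rank `Ra` -/
noncomputable def wR (Ra : ℕ) : ℝ := (Ra : ℝ) ^ (-0.1 : ℝ)

/-- one-coordinate entropy -/
noncomputable def h1 (A : ℝ) (P : ℕ) [NeZero P] : ℝ := - ∑ u : ZMod P, G A u * Real.log (G A u)

/-- FACTS of block G2, for base rank `R` and modulus `P`. -/
structure G2Facts (R P : ℕ) [NeZero P] (c0 C0 : ℝ) : Prop where
  /-- (a) normalisation -/
  norm : |del (AR R) P * NA (AR R) P / Real.sqrt (2 * π) - 1| ≤ (R : ℝ) ^ (-1.1 : ℝ)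
  /-- (b) second moment -/
  mom2 : |(∑ k ∈ Finset.Ico (-(P : ℤ)) P, (del (AR R) P * k) ^ 2 * gs (AR R) P k) / NA (AR R) P - 1|
    ≤ (R : ℝ) ^ (-1.1 : ℝ)
  /-- (c) fourth moment -/
  mom4 : (∑ k ∈ Finset.Ico (-(P : ℤ)) P, (del (AR R) P * k) ^ 4 * gs (AR R) P k) / NA (AR R) P ≤ 4
  /-- (d) second moment of the log-weight -/
  log2 : ∑ u : ZMod P, G (AR R) u * (Real.log (G (AR R) u) + Real.log (NA (AR R) P)) ^ 2 ≤ 4
  /-- (e) additive energy -/
  energy : ∑ a : ZMod P, ∑ b : ZMod P, ∑ c : ZMod P,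
    G (AR R) a * G (AR R) b * G (AR R) c * G (AR R) (b + c - a) ≤ 0.205 * del (AR R) P
  /-- (f) entropy, lower bound of the deficit -/
  ent_lo : c0 * Real.exp (-(AR R) ^ 2 / 8) / AR R
    ≤ Real.log (Real.sqrt (2 * π * Real.exp 1) / del (AR R) P) - h1 (AR R) P
  /-- (f) entropy, upper bound of the deficit -/
  ent_hi : Real.log (Real.sqrt (2 * π * Real.exp 1) / del (AR R) P) - h1 (AR R) P
    ≤ C0 * (AR R) ^ 2 * Real.exp (-(AR R) ^ 2 / 8)
  /-- (g) mass of the balanced set -/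
  bal_lo : (R : ℝ) ^ (-0.405 : ℝ) ≤ ∑ u : ZMod P, 2 * mm (AR R) (wR R) true u
  /-- (g) mass of the balanced set -/
  bal_hi : ∑ u : ZMod P, 2 * mm (AR R) (wR R) true u ≤ (R : ℝ) ^ (-0.395 : ℝ)

/-- Block G2. -/
def S_G2 : Prop := ∃ c0 C0 : ℝ, 0 < c0 ∧ 0 < C0 ∧ ∃ R0 : ℕ, ∀ R P : ℕ, R0 ≤ R →
  ∀ [NeZero P], R ^ 10 ≤ P → P ≤ 2 * R ^ 10 → G2Facts R P c0 C0

end Vale.Agent.P230.H852
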