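import Vale.Agent.P230.H852.Defs

/-!
P230, blocks G2/G3: basic facts on lifts, `q0`, `q1`, `G`, `mm`, `wt`.
-/

namespace Vale.Agent.P230.H852

open Finset Real

theorem sum_val {P : ℕ} [NeZero P] (f : ℕ → ℝ) : ∑ u : ZMod P, f u.val = ∑ i ∈ range P, f i := by
  refine Finset.sum_nbij' (fun u : ZMod P => u.val) (fun i : ℕ => (i : ZMod P)) ?_ ?_ ?_ ?_ ?_
  · intro u _; exact Finset.mem_range.mpr (ZMod.val_lt u)
  · intro i _; exact Finset.mem_univ _
  · intro u _; exact ZMod.natCast_zmod_val u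
  · intro i hi; exact ZMod.val_cast_of_lt (Finset.mem_range.mp hi)
  · intro u _; rfl

theorem sum_Ico_split (P : ℕ) (f : ℤ → ℝ) :
    ∑ k ∈ Finset.Ico (-(P : ℤ)) P, f k = ∑ i ∈ range P, (f i + f ((i : ℤ) - P)) := by
  rw [Finset.sum_add_distrib]
  have h1 : ∑ k ∈ Finset.Ico (-(P : ℤ)) P, f k
      = ∑ k ∈ Finset.Ico (-(P : ℤ)) 0, f k + ∑ k ∈ Finset.Ico (0 : ℤ) P, f k := by
    rw [← Finset.sum_union]
    · congr 1
      rw [Finset.Ico_union_Ico_eq_Ico] <;> omega
    · exact Finset.Ico_disjoint_Ico_consecutive _ _ _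
  rw [h1, add_comm]
  congr 1
  · refine (Finset.sum_nbij' (fun i : ℕ => (i : ℤ)) (fun k : ℤ => k.toNat) ?_ ?_ ?_ ?_ ?_).symm
    · intro i hi; simp only [Finset.mem_range] at hi; simp only [Finset.mem_Ico]; omega
    · intro k hk; simp only [Finset.mem_Ico] at hk; simp only [Finset.mem_range]; omega
    · intro i _; simp
    · intro k hk; simp only [Finset.mem_Ico] at hk; simp only [Int.toNat_of_nonneg hk.1]
    · intro i _; rfl
  · refine (Finset.sum_nbij' (fun i : ℕ => (i : ℤ) - P) (fun k : ℤ => (k + P).toNat)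
      ?_ ?_ ?_ ?_ ?_).symm
    · intro i hi; simp only [Finset.mem_range] at hi; simp only [Finset.mem_Ico]; omega
    · intro k hk; simp only [Finset.mem_Ico] at hk; simp only [Finset.mem_range]; omega
    · intro i _; simp
    · intro k hk
      simp only [Finset.mem_Ico] at hk
      omega
    · intro i _; rfl

/-- sum over residues of both lifts = sum over `-P ≤ k < P` -/
theorem sum_lifts {P : ℕ} [NeZero P] (f : ℤ → ℝ) :
    ∑ u : ZMod P, (f (k0 u) + f (k1 u)) = ∑ k ∈ Finset.Ico (-(P : ℤ)) P, f k := by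
  rw [sum_Ico_split]
  exact sum_val (fun i => f (i : ℤ) + f ((i : ℤ) - P))

variable {A w : ℝ} {P : ℕ}

theorem gs_pos (k : ℤ) : 0 < gs A P k := Real.exp_pos _

theorem NA_pos [NeZero P] : 0 < NA A P := by
  apply Finset.sum_pos (fun k _ => gs_pos k)
  refine ⟨0, ?_⟩
  simp only [Finset.mem_Ico]
  have := NeZero.pos P
  omega

theorem q0_pos [NeZero P] (u : ZMod P) : 0 < q0 A u := div_pos (gs_pos _) NA_pos

theorem q1_pos [NeZero P] (u : ZMod P) : 0 < q1 A u := div_pos (gs_pos _) NA_pos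

theorem G_pos [NeZero P] (u : ZMod P) : 0 < G A u := add_pos (q0_pos u) (q1_pos u)

theorem sum_q [NeZero P] (φ : ℤ → ℝ) :
    ∑ u : ZMod P, (q0 A u * φ (k0 u) + q1 A u * φ (k1 u))
      = (∑ k ∈ Finset.Ico (-(P : ℤ)) P, φ k * gs A P k) / NA A P := by
  rw [← sum_lifts (fun k => φ k * gs A P k), Finset.sum_div]
  refine Finset.sum_congr rfl fun u _ => ?_
  simp only [q0, q1]
  ring

theorem sum_G [NeZero P] : ∑ u : ZMod P, G A u = 1 := by
  have h := sum_q (A := A) (P := P) (fun _ => 1)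
  simp only [mul_one, one_mul] at h
  rw [show (∑ k ∈ Finset.Ico (-(P : ℤ)) P, gs A P k) = NA A P from rfl, div_self NA_pos.ne'] at h
  exact h

theorem mm_nonneg [NeZero P] (b : Bool) (u : ZMod P) : 0 ≤ mm A w b u := by
  unfold mm
  split_ifs
  · exact le_min (q0_pos u).le (q1_pos u).le
  · exact le_rfl

theorem mm_le_q0 [NeZero P] (b : Bool) (u : ZMod P) : mm A w b u ≤ q0 A u := by
  unfold mm
  split_ifs
  · exact min_le_left _ _
  · exact (q0_pos u).le

theorem mm_le_q1 [NeZero P] (b : Bool) (u : ZMod P) : mm A w b u ≤ q1 A u := by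
  unfold mm
  split_ifs
  · exact min_le_right _ _
  · exact (q1_pos u).le

theorem mm_false (u : ZMod P) : mm A w false u = 0 := by simp [mm]

theorem wt_nonneg [NeZero P] (b : Bool) (u : ZMod P) (s : St) : 0 ≤ wt A w b u s := by
  cases s
  · exact sub_nonneg.mpr (mm_le_q0 b u)
  · exact sub_nonneg.mpr (mm_le_q1 b u)
  · exact mul_nonneg (by norm_num) (mm_nonneg b u)

theorem sum_St (f : St → ℝ) : ∑ s, f s = f St.l0 + f St.l1 + f St.fr := by
  rw [show (Finset.univ : Finset St) = {St.l0, St.l1, St.fr} from rfl]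
  rw [Finset.sum_insert (by simp), Finset.sum_insert (by simp), Finset.sum_singleton]
  ring

theorem sum_wt (b : Bool) (u : ZMod P) : ∑ s, wt A w b u s = G A u := by
  rw [sum_St]; simp only [wt, G]; ring

theorem sum_wt_all [NeZero P] (b : Bool) :
    ∑ x : ZMod P × St, wt A w b x.1 x.2 = 1 := by
  rw [Fintype.sum_prod_type]
  simp only [sum_wt]
  exact sum_G

/-- `x²` of the two lifts on a balanced residue are close -/
theorem abs_sq_sub_le [NeZero P] {u : ZMod P} (hA : 0 ≤ A) (hu : Bal A w u) :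
    |(del A P * k0 u) ^ 2 - (del A P * k1 u) ^ 2| ≤ 2 * A * w := by
  have hP : (P : ℝ) ≠ 0 := Nat.cast_ne_zero.mpr (NeZero.ne P)
  have h1 : del A P * (k1 u : ℝ) = del A P * (k0 u : ℝ) - A := by
    simp only [k1, k0, del]
    push_cast
    field_simp
  rw [h1]
  have h2 : (del A P * (k0 u : ℝ)) ^ 2 - (del A P * (k0 u : ℝ) - A) ^ 2
      = 2 * A * (del A P * (k0 u : ℝ) - A / 2) := by ring
  rw [h2, abs_mul, abs_of_nonneg (by positivity : (0 : ℝ) ≤ 2 * A)]
  refine mul_le_mul_of_nonneg_left ?_ (by positivity)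
  have := hu
  unfold Bal at this
  simpa [k0] using this

end Vale.Agent.P230.H852
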