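import Vale.Agent.P230.H852.Lift

/-!
P230, block G2 (g): the mass of the balanced residues.
-/

namespace Vale.Agent.P230.H852

open Finset Real

variable {A w : ℝ} {P : ℕ}

/-- integers in a window -/
theorem card_window {α β : ℝ} (hα : 0 ≤ α) (hαβ : α ≤ β) {P : ℕ} (hβ : β < P) :
    β - α - 1 ≤ (((range P).filter fun i : ℕ => α ≤ (i : ℝ) ∧ (i : ℝ) ≤ β).card : ℝ) ∧
      (((range P).filter fun i : ℕ => α ≤ (i : ℝ) ∧ (i : ℝ) ≤ β).card : ℝ) ≤ β - α + 1 := by
  have hβ0 : 0 ≤ β := hα.trans hαβ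
  have h : ((range P).filter fun i : ℕ => α ≤ (i : ℝ) ∧ (i : ℝ) ≤ β)
      = Finset.Ico ⌈α⌉₊ (⌊β⌋₊ + 1) := by
    ext i
    simp only [Finset.mem_filter, Finset.mem_range, Finset.mem_Ico]
    constructor
    · rintro ⟨_, h1, h2⟩
      exact ⟨Nat.ceil_le.mpr h1, Nat.lt_succ_of_le (Nat.le_floor h2)⟩
    · rintro ⟨h1, h2⟩
      have h3 : (i : ℝ) ≤ β := (Nat.le_floor_iff hβ0).mp (Nat.lt_succ_iff.mp h2)
      refine ⟨?_, Nat.ceil_le.mp h1, h3⟩
      have : (i : ℝ) < P := lt_of_le_of_lt h3 hβ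
      exact_mod_cast this
  rw [h, Nat.card_Ico]
  have c1 := Nat.ceil_lt_add_one hα
  have c2 := Nat.le_ceil α
  have c3 := Nat.lt_floor_add_one β
  have c4 := Nat.floor_le hβ0
  rcases le_or_gt ⌈α⌉₊ (⌊β⌋₊ + 1) with hle | hlt
  · rw [Nat.cast_sub hle]
    push_cast
    constructor <;> linarith
  · rw [Nat.sub_eq_zero_of_le hlt.le]
    have : ((⌊β⌋₊ + 1 : ℕ) : ℝ) < (⌈α⌉₊ : ℝ) := by exact_mod_cast hlt
    push_cast at this ⊢
    constructor <;> linarith

/-- the mass of the balanced residues as a sum over a window of integers -/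
theorem sum_mm_eq [NeZero P] : ∑ u : ZMod P, 2 * mm A w true u
    = ∑ i ∈ (range P).filter (fun i : ℕ => |del A P * (i : ℝ) - A / 2| ≤ w),
      2 * (min (gs A P i) (gs A P ((i : ℤ) - P)) / NA A P) := by
  classical
  have h1 : ∀ u : ZMod P, 2 * mm A w true u
      = (fun i : ℕ => if |del A P * (i : ℝ) - A / 2| ≤ w then
        2 * (min (gs A P i) (gs A P ((i : ℤ) - P)) / NA A P) else 0) u.val := by
    intro u
    simp only [mm, Bal, q0, q1, k0, k1, true_and]
    split_ifs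
    · rw [← min_div_div_right NA_pos.le]
    · simp
  rw [Finset.sum_congr rfl fun u _ => h1 u]
  rw [sum_val (fun i : ℕ => if |del A P * (i : ℝ) - A / 2| ≤ w then
        2 * (min (gs A P i) (gs A P ((i : ℤ) - P)) / NA A P) else 0), Finset.sum_filter]

theorem gs_min_bounds [NeZero P] (hA : 0 < A) {i : ℕ}
    (hi : |del A P * (i : ℝ) - A / 2| ≤ w) (hAw : A * w / 2 + w ^ 2 / 2 ≤ 1) :
    Real.exp (-1) * Real.exp (-A ^ 2 / 8) ≤ min (gs A P i) (gs A P ((i : ℤ) - P)) ∧
      min (gs A P i) (gs A P ((i : ℤ) - P)) ≤ Real.exp (-A ^ 2 / 8) := by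
  have hPA : del A P * P = A := by
    unfold del
    have : (P : ℝ) ≠ 0 := Nat.cast_ne_zero.mpr (NeZero.ne P)
    field_simp
  set y : ℝ := del A P * (i : ℝ) - A / 2 with hy
  have e0 : gs A P i = Real.exp (-(A / 2 + y) ^ 2 / 2) := by
    unfold gs
    rw [hy]
    push_cast
    congr 3
    ring
  have e1 : gs A P ((i : ℤ) - P) = Real.exp (-(A / 2 - y) ^ 2 / 2) := by
    unfold gs
    push_cast
    rw [mul_sub, hPA, show del A P * (i : ℝ) - A = -(A / 2 - y) by rw [hy]; ring]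
    congr 2
    ring
  have hy1 := abs_le.mp hi
  rw [e0, e1]
  have hb1 : y ^ 2 ≤ w ^ 2 := by rw [← sq_abs y]; exact pow_le_pow_left₀ (abs_nonneg _) hi 2
  refine ⟨le_min ?_ ?_, ?_⟩
  · rw [← Real.exp_add]
    apply Real.exp_le_exp.mpr
    nlinarith [mul_le_mul_of_nonneg_left hy1.2 hA.le]
  · rw [← Real.exp_add]
    apply Real.exp_le_exp.mpr
    nlinarith [mul_le_mul_of_nonneg_left hy1.1 hA.le]
  · rcases le_total 0 y with h | h
    · refine (min_le_left _ _).trans (Real.exp_le_exp.mpr ?_)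
      nlinarith [mul_nonneg hA.le h, sq_nonneg y]
    · refine (min_le_right _ _).trans (Real.exp_le_exp.mpr ?_)
      nlinarith [mul_nonneg hA.le (neg_nonneg.mpr h), sq_nonneg y]

/-- (g) -/
theorem bal_bounds [NeZero P] (hA : 2 ≤ A) (hw0 : 0 < w) (hw : w ≤ 1 / A ^ 2)
    (hδ : del A P ≤ w) (hN1 : 1 ≤ del A P * NA A P) (hN2 : del A P * NA A P ≤ 3) :
    (2 / (3 * Real.exp 1)) * w * Real.exp (-A ^ 2 / 8) ≤ ∑ u : ZMod P, 2 * mm A w true u ∧
      ∑ u : ZMod P, 2 * mm A w true u ≤ 6 * w * Real.exp (-A ^ 2 / 8) := by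
  have hA0 : 0 < A := by linarith
  have hd : 0 < del A P := div_pos hA0 (by exact_mod_cast NeZero.pos P)
  have hNp : 0 < NA A P := NA_pos
  have hPA : del A P * P = A := by
    unfold del
    have : (P : ℝ) ≠ 0 := Nat.cast_ne_zero.mpr (NeZero.ne P)
    field_simp
  set δ := del A P with hδd
  have hw4 : w ≤ 1 / 4 := hw.trans (by
    apply one_div_le_one_div_of_le (by norm_num)
    nlinarith)
  have hAw1 : A * w ≤ 1 / 2 := by
    calc A * w ≤ A * (1 / A ^ 2) := mul_le_mul_of_nonneg_left hw hA0.le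
      _ = 1 / A := by field_simp
      _ ≤ 1 / 2 := one_div_le_one_div_of_le (by norm_num) hA
  have hAw : A * w / 2 + w ^ 2 / 2 ≤ 1 := by nlinarith
  have hfil : (range P).filter (fun i : ℕ => |δ * (i : ℝ) - A / 2| ≤ w)
      = (range P).filter (fun i : ℕ => (A / 2 - w) / δ ≤ (i : ℝ) ∧ (i : ℝ) ≤ (A / 2 + w) / δ) := by
    apply Finset.filter_congr
    intro i _
    rw [abs_le, div_le_iff₀ hd, le_div_iff₀ hd]
    constructor
    · rintro ⟨h1, h2⟩; constructor <;> linarith
    · rintro ⟨h1, h2⟩; constructor <;> linarith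
  have hcard := card_window (α := (A / 2 - w) / δ) (β := (A / 2 + w) / δ) (P := P)
    (div_nonneg (by linarith) hd.le) (div_le_div_of_nonneg_right (by linarith) hd.le)
    (by rw [div_lt_iff₀ hd, mul_comm, hPA]; linarith)
  rw [← hfil] at hcard
  have hdiff : (A / 2 + w) / δ - (A / 2 - w) / δ = 2 * (w / δ) := by ring
  rw [hdiff] at hcard
  have hwδ : 1 ≤ w / δ := by rw [le_div_iff₀ hd]; linarith
  rw [sum_mm_eq]
  set S := (range P).filter (fun i : ℕ => |δ * (i : ℝ) - A / 2| ≤ w) with hS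
  have hE : 0 < Real.exp (-A ^ 2 / 8) := Real.exp_pos _
  constructor
  · calc (2 / (3 * Real.exp 1)) * w * Real.exp (-A ^ 2 / 8)
        ≤ (w / δ) * (2 * (Real.exp (-1) * Real.exp (-A ^ 2 / 8) / NA A P)) := by
          rw [Real.exp_neg]
          have h3 : (2 / (3 * Real.exp 1)) * w * Real.exp (-A ^ 2 / 8)
              = (2 * w * Real.exp (-A ^ 2 / 8) * (Real.exp 1)⁻¹) / 3 := by
            field_simp
          have h4 : (w / δ) * (2 * ((Real.exp 1)⁻¹ * Real.exp (-A ^ 2 / 8) / NA A P))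
              = (2 * w * Real.exp (-A ^ 2 / 8) * (Real.exp 1)⁻¹) / (δ * NA A P) := by
            field_simp
          rw [h3, h4]
          apply div_le_div_of_nonneg_left (by positivity) (by linarith) hN2
      _ ≤ (S.card : ℝ) * (2 * (Real.exp (-1) * Real.exp (-A ^ 2 / 8) / NA A P)) := by
          apply mul_le_mul_of_nonneg_right _ (by positivity)
          linarith [hcard.1]
      _ = ∑ _i ∈ S, 2 * (Real.exp (-1) * Real.exp (-A ^ 2 / 8) / NA A P) := by
          rw [Finset.sum_const, nsmul_eq_mul]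
      _ ≤ _ := by
          refine Finset.sum_le_sum fun i hi => ?_
          have := (gs_min_bounds (P := P) hA0 (Finset.mem_filter.mp hi).2 hAw).1
          apply mul_le_mul_of_nonneg_left _ (by norm_num)
          exact div_le_div_of_nonneg_right this hNp.le
  · calc ∑ i ∈ S, 2 * (min (gs A P i) (gs A P ((i : ℤ) - P)) / NA A P)
        ≤ ∑ _i ∈ S, 2 * (Real.exp (-A ^ 2 / 8) / NA A P) := by
          refine Finset.sum_le_sum fun i hi => ?_
          have := (gs_min_bounds (P := P) hA0 (Finset.mem_filter.mp hi).2 hAw).2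
          apply mul_le_mul_of_nonneg_left _ (by norm_num)
          exact div_le_div_of_nonneg_right this hNp.le
      _ = (S.card : ℝ) * (2 * (Real.exp (-A ^ 2 / 8) / NA A P)) := by
          rw [Finset.sum_const, nsmul_eq_mul]
      _ ≤ (3 * (w / δ)) * (2 * (Real.exp (-A ^ 2 / 8) / NA A P)) := by
          apply mul_le_mul_of_nonneg_right _ (by positivity)
          linarith [hcard.2]
      _ = (6 * w * Real.exp (-A ^ 2 / 8)) / (δ * NA A P) := by field_simp; norm_num
      _ ≤ 6 * w * Real.exp (-A ^ 2 / 8) := div_le_self (by positivity) hN1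

end Vale.Agent.P230.H852
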