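import Vale.Agent.P230.H852.Typ

/-!
P230, block G3: Chebyshev bounds for the masses of the atypical events.
-/

namespace Vale.Agent.P230.H852

open Finset Real

variable {κ : Type*} [Fintype κ] [DecidableEq κ] {P : ℕ} [NeZero P]
variable {A w : ℝ} {b : κ → Bool}

/-- expectation of a one-coordinate function under the state weights -/
noncomputable def ex (A w : ℝ) (b : Bool) (P : ℕ) [NeZero P] (f : ZMod P → St → ℝ) : ℝ :=
  ∑ u : ZMod P, ∑ s : St, wt A w b u s * f u s

theorem mass_cheb (f : κ → ZMod P → St → ℝ) {V a : ℝ} (ha : 0 < a)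
    (hV : ∑ j, ex A w (b j) P (fun u s => f j u s ^ 2) ≤ V) :
    mass A w b (fun (u : κ → ZMod P) σ =>
      a ≤ |∑ j, f j (u j) (σ j) - ∑ j, ex A w (b j) P (f j)|) ≤ V / a ^ 2 := by
  classical
  rw [mass_eq]
  have h1 : ∀ (j : κ) (F : ZMod P → St → ℝ), ex A w (b j) P F
      = ∑ x : ZMod P × St, wt A w (b j) x.1 x.2 * F x.1 x.2 := by
    intro j F
    rw [Fintype.sum_prod_type]
    rfl
  simp only [h1] at hV ⊢
  have := chebyshev (w := fun j (x : ZMod P × St) => wt A w (b j) x.1 x.2)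
    (fun j x => wt_nonneg _ _ _) (fun j => sum_wt_all _) (fun j x => f j x.1 x.2) ha hV
  convert this using 1

theorem ex_log (b : Bool) :
    ex A w b P (fun u _ => Real.log (G A u) + Real.log (NA A P))
      = - h1 A P + Real.log (NA A P) := by
  unfold ex h1
  simp only [← Finset.sum_mul, sum_wt]
  simp only [mul_add, Finset.sum_add_distrib, ← Finset.sum_mul, sum_G, one_mul, neg_neg]

theorem ex_log_sq (b : Bool) :
    ex A w b P (fun u _ => (Real.log (G A u) + Real.log (NA A P)) ^ 2)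
      = ∑ u : ZMod P, G A u * (Real.log (G A u) + Real.log (NA A P)) ^ 2 := by
  unfold ex
  simp only [← Finset.sum_mul, sum_wt]

/-- entropy event -/
theorem mass_ent {lam C : ℝ} (hlam : 0 < lam)
    (hC : ∑ u : ZMod P, G A u * (Real.log (G A u) + Real.log (NA A P)) ^ 2 ≤ C) :
    mass A w b (fun (u : κ → ZMod P) _ =>
      lam < |∑ j, Real.log (G A (u j)) + Fintype.card κ * h1 A P|)
      ≤ Fintype.card κ * C / lam ^ 2 := by
  refine (mass_mono ?_).trans (mass_cheb
    (fun _ u _ => Real.log (G A u) + Real.log (NA A P)) hlam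
    (V := Fintype.card κ * C) ?_)
  · intro u σ _ hh
    simp only [ex_log, Finset.sum_add_distrib, Finset.sum_const, Finset.card_univ, nsmul_eq_mul]
    have : ∑ j, Real.log (G A (u j)) + (Fintype.card κ : ℝ) * Real.log (NA A P)
        - (Fintype.card κ : ℝ) * (- h1 A P + Real.log (NA A P))
        = ∑ j, Real.log (G A (u j)) + Fintype.card κ * h1 A P := by ring
    rw [mul_add] at *
    rw [show ∑ j, Real.log (G A (u j)) + (Fintype.card κ : ℝ) * Real.log (NA A P)
        - ((Fintype.card κ : ℝ) * (- h1 A P) + (Fintype.card κ : ℝ) * Real.log (NA A P))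
        = ∑ j, Real.log (G A (u j)) + Fintype.card κ * h1 A P by ring]
    exact hh.le
  · simp only [ex_log_sq, Finset.sum_const, Finset.card_univ, nsmul_eq_mul]
    exact mul_le_mul_of_nonneg_left hC (Nat.cast_nonneg _)

/-- expectation of `xlow` -/
theorem ex_low (b : Bool) : ex A w b P (fun u s => xlow A u s)
    = (∑ k ∈ Finset.Ico (-(P : ℤ)) P, (del A P * k) ^ 2 * gs A P k) / NA A P
      - ∑ u : ZMod P, mm A w b u * |(del A P * k0 u) ^ 2 - (del A P * k1 u) ^ 2| := by
  rw [← sum_q (fun k => (del A P * k) ^ 2), ← Finset.sum_sub_distrib]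
  unfold ex
  refine Finset.sum_congr rfl fun u _ => ?_
  rw [sum_St]
  simp only [wt, xlow]
  rcases le_total ((del A P * k0 u) ^ 2) ((del A P * k1 u) ^ 2) with h | h
  · rw [min_eq_left h, abs_of_nonpos (by linarith)]; ring
  · rw [min_eq_right h, abs_of_nonneg (by linarith)]; ring

/-- expectation of `xhigh` -/
theorem ex_high (b : Bool) : ex A w b P (fun u s => xhigh A u s)
    = (∑ k ∈ Finset.Ico (-(P : ℤ)) P, (del A P * k) ^ 2 * gs A P k) / NA A P
      + ∑ u : ZMod P, mm A w b u * |(del A P * k0 u) ^ 2 - (del A P * k1 u) ^ 2| := by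
  rw [← sum_q (fun k => (del A P * k) ^ 2), ← Finset.sum_add_distrib]
  unfold ex
  refine Finset.sum_congr rfl fun u _ => ?_
  rw [sum_St]
  simp only [wt, xhigh]
  rcases le_total ((del A P * k0 u) ^ 2) ((del A P * k1 u) ^ 2) with h | h
  · rw [max_eq_right h, abs_of_nonpos (by linarith)]; ring
  · rw [max_eq_left h, abs_of_nonneg (by linarith)]; ring

theorem sum_mm_abs (hA : 0 ≤ A) (b : Bool) :
    ∑ u : ZMod P, mm A w b u * |(del A P * k0 u) ^ 2 - (del A P * k1 u) ^ 2|
      ≤ (∑ u : ZMod P, 2 * mm A w true u) * (A * |w|) := by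
  rw [Finset.sum_mul]
  refine Finset.sum_le_sum fun u _ => ?_
  by_cases h : b = true ∧ Bal A w u
  · have h2 := abs_sq_sub_le hA h.2
    have h3 : mm A w b u = mm A w true u := by rw [h.1]
    rw [h3]
    have h4 : (0 : ℝ) ≤ mm A w true u := mm_nonneg true u
    calc mm A w true u * |(del A P * k0 u) ^ 2 - (del A P * k1 u) ^ 2|
        ≤ mm A w true u * (2 * A * w) := mul_le_mul_of_nonneg_left h2 h4
      _ ≤ mm A w true u * (2 * A * |w|) :=
          mul_le_mul_of_nonneg_left (mul_le_mul_of_nonneg_left (le_abs_self w) (by positivity)) h4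
      _ = 2 * mm A w true u * (A * |w|) := by ring
  · have h1 : mm A w b u = 0 := by unfold mm; rw [if_neg h]
    rw [h1, zero_mul]
    have := mm_nonneg (A := A) (w := w) true u
    positivity

theorem ex_low_sq (b : Bool) : ex A w b P (fun u s => xlow A u s ^ 2)
    ≤ (∑ k ∈ Finset.Ico (-(P : ℤ)) P, (del A P * k) ^ 4 * gs A P k) / NA A P := by
  rw [← sum_q (fun k => (del A P * k) ^ 4)]
  unfold ex
  refine Finset.sum_le_sum fun u _ => ?_
  rw [sum_St]
  simp only [wt, xlow]
  have hm := mm_nonneg (A := A) (w := w) b u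
  set x := (del A P * k0 u) ^ 2 with hx
  set y := (del A P * k1 u) ^ 2 with hy
  have hx0 : 0 ≤ x := sq_nonneg _
  have hy0 : 0 ≤ y := sq_nonneg _
  have hx4 : (del A P * (k0 u : ℝ)) ^ 4 = x ^ 2 := by rw [hx]; ring
  have hy4 : (del A P * (k1 u : ℝ)) ^ 4 = y ^ 2 := by rw [hy]; ring
  rw [hx4, hy4]
  have h1 : min x y ^ 2 ≤ x ^ 2 := pow_le_pow_left₀ (le_min hx0 hy0) (min_le_left _ _) 2
  have h2 : min x y ^ 2 ≤ y ^ 2 := pow_le_pow_left₀ (le_min hx0 hy0) (min_le_right _ _) 2
  nlinarith [mul_le_mul_of_nonneg_left h1 hm, mul_le_mul_of_nonneg_left h2 hm]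

theorem ex_high_sq (hA : 0 ≤ A) (b : Bool) : ex A w b P (fun u s => xhigh A u s ^ 2)
    ≤ 2 * ((∑ k ∈ Finset.Ico (-(P : ℤ)) P, (del A P * k) ^ 4 * gs A P k) / NA A P)
      + 2 * (2 * A * |w|) ^ 2 := by
  have h0 : ex A w b P (fun u s => xhigh A u s ^ 2)
      ≤ ex A w b P (fun u s => 2 * xlow A u s ^ 2 + 2 * (2 * A * |w|) ^ 2) := by
    unfold ex
    refine Finset.sum_le_sum fun u _ => ?_
    rw [sum_St, sum_St]
    have hl0 := wt_nonneg (A := A) (w := w) b u St.l0
    have hl1 := wt_nonneg (A := A) (w := w) b u St.l1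
    have e0 : wt A w b u St.l0 * xhigh A u St.l0 ^ 2
        ≤ wt A w b u St.l0 * (2 * xlow A u St.l0 ^ 2 + 2 * (2 * A * |w|) ^ 2) := by
      apply mul_le_mul_of_nonneg_left _ hl0
      simp only [xhigh, xlow]
      nlinarith [sq_nonneg ((del A P * (k0 u : ℝ)) ^ 2), sq_nonneg (2 * A * |w|)]
    have e1 : wt A w b u St.l1 * xhigh A u St.l1 ^ 2
        ≤ wt A w b u St.l1 * (2 * xlow A u St.l1 ^ 2 + 2 * (2 * A * |w|) ^ 2) := by
      apply mul_le_mul_of_nonneg_left _ hl1
      simp only [xhigh, xlow]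
      nlinarith [sq_nonneg ((del A P * (k1 u : ℝ)) ^ 2), sq_nonneg (2 * A * |w|)]
    have e2 : wt A w b u St.fr * xhigh A u St.fr ^ 2
        ≤ wt A w b u St.fr * (2 * xlow A u St.fr ^ 2 + 2 * (2 * A * |w|) ^ 2) := by
      by_cases h : b = true ∧ Bal A w u
      · apply mul_le_mul_of_nonneg_left _ (wt_nonneg b u St.fr)
        have h2 := abs_sq_sub_le hA h.2
        have hw : w ≤ |w| := le_abs_self w
        simp only [xhigh, xlow]
        set x := (del A P * k0 u) ^ 2 with hx
        set y := (del A P * k1 u) ^ 2 with hy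
        have hx0 : 0 ≤ x := sq_nonneg _
        have hy0 : 0 ≤ y := sq_nonneg _
        have h3 : |x - y| ≤ 2 * A * |w| :=
          h2.trans (mul_le_mul_of_nonneg_left hw (by positivity))
        have h4 : max x y ≤ min x y + 2 * A * |w| := by
          rcases le_total x y with hxy | hxy
          · rw [max_eq_right hxy, min_eq_left hxy]
            have := (abs_le.mp h3).1
            linarith
          · rw [max_eq_left hxy, min_eq_right hxy]
            have := (abs_le.mp h3).2
            linarith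
        have h5 : 0 ≤ max x y := le_max_of_le_left hx0
        calc max x y ^ 2 ≤ (min x y + 2 * A * |w|) ^ 2 := pow_le_pow_left₀ h5 h4 2
          _ ≤ 2 * min x y ^ 2 + 2 * (2 * A * |w|) ^ 2 := by
              nlinarith [sq_nonneg (min x y - 2 * A * |w|)]
      · have h1 : wt A w b u St.fr = 0 := by
          show 2 * mm A w b u = 0
          unfold mm; rw [if_neg h, mul_zero]
        rw [h1]; simp
    linarith
  refine h0.trans ?_
  have h1 : ex A w b P (fun u s => 2 * xlow A u s ^ 2 + 2 * (2 * A * |w|) ^ 2)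
      = 2 * ex A w b P (fun u s => xlow A u s ^ 2) + 2 * (2 * A * |w|) ^ 2 := by
    unfold ex
    have : ∀ u : ZMod P, ∑ s, wt A w b u s * (2 * xlow A u s ^ 2 + 2 * (2 * A * |w|) ^ 2)
        = 2 * ∑ s, wt A w b u s * xlow A u s ^ 2 + G A u * (2 * (2 * A * |w|) ^ 2) := by
      intro u
      rw [← sum_wt (A := A) (w := w) b u, Finset.sum_mul, Finset.mul_sum, ← Finset.sum_add_distrib]
      refine Finset.sum_congr rfl fun s _ => by ring
    simp_rw [this]
    rw [Finset.sum_add_distrib, ← Finset.mul_sum, ← Finset.sum_mul, sum_G, one_mul]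
  rw [h1]
  have := ex_low_sq (A := A) (w := w) (P := P) b
  linarith

/-- the free event -/
theorem ex_free (b : Bool) : ex A w b P (fun _ s => if s = St.fr then (1 : ℝ) else 0)
    = ∑ u : ZMod P, 2 * mm A w b u := by
  unfold ex
  refine Finset.sum_congr rfl fun u _ => ?_
  rw [sum_St]
  simp [wt]

/-- low event -/
theorem mass_low {lo a V2 : ℝ} (ha : 0 < a)
    (hlo : lo + a ≤ ∑ j, ex A w (b j) P (fun u s => xlow A u s))
    (hV : (∑ k ∈ Finset.Ico (-(P : ℤ)) P, (del A P * k) ^ 4 * gs A P k) / NA A P ≤ V2) :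
    mass A w b (fun (u : κ → ZMod P) σ => ∑ j, xlow A (u j) (σ j) < lo)
      ≤ Fintype.card κ * V2 / a ^ 2 := by
  refine (mass_mono ?_).trans (mass_cheb (fun _ u s => xlow A u s) ha
    (V := Fintype.card κ * V2) ?_)
  · intro u σ _ hh
    rw [abs_sub_comm]
    refine le_trans ?_ (le_abs_self _)
    linarith
  · calc ∑ j, ex A w (b j) P (fun u s => xlow A u s ^ 2) ≤ ∑ _j : κ, V2 :=
        Finset.sum_le_sum fun j _ => (ex_low_sq (b j)).trans hV
      _ = Fintype.card κ * V2 := by simp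

/-- high event -/
theorem mass_high {hi a V2 : ℝ} (hA : 0 ≤ A) (ha : 0 < a)
    (hhi : ∑ j, ex A w (b j) P (fun u s => xhigh A u s) + a ≤ hi)
    (hV : 2 * ((∑ k ∈ Finset.Ico (-(P : ℤ)) P, (del A P * k) ^ 4 * gs A P k) / NA A P)
      + 2 * (2 * A * |w|) ^ 2 ≤ V2) :
    mass A w b (fun (u : κ → ZMod P) σ => hi < ∑ j, xhigh A (u j) (σ j))
      ≤ Fintype.card κ * V2 / a ^ 2 := by
  refine (mass_mono ?_).trans (mass_cheb (fun _ u s => xhigh A u s) ha
    (V := Fintype.card κ * V2) ?_)
  · intro u σ _ hh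
    refine le_trans ?_ (le_abs_self _)
    linarith
  · calc ∑ j, ex A w (b j) P (fun u s => xhigh A u s ^ 2) ≤ ∑ _j : κ, V2 :=
        Finset.sum_le_sum fun j _ => (ex_high_sq hA (b j)).trans hV
      _ = Fintype.card κ * V2 := by simp

/-- free event -/
theorem mass_free {D : ℕ} {E : ℝ} (hE0 : 0 < E)
    (hE : E = (Finset.univ.filter fun j => b j = true).card * ∑ u : ZMod P, 2 * mm A w true u)
    (hD : (D : ℝ) ≤ E / 2) :
    mass A w b (fun (_ : κ → ZMod P) σ =>
      (Finset.univ.filter fun j => σ j = St.fr).card < D) ≤ 4 / E := by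
  have hsum : ∑ j, ex A w (b j) P (fun _ s => if s = St.fr then (1 : ℝ) else 0) = E := by
    simp only [ex_free]
    rw [hE, Finset.card_filter, Nat.cast_sum, Finset.sum_mul]
    refine Finset.sum_congr rfl fun j _ => ?_
    cases hb : b j
    · simp [mm_false]
    · simp
  have h4 : 4 / E = E / (E / 2) ^ 2 := by
    field_simp
    norm_num
  rw [h4]
  refine (mass_mono ?_).trans (mass_cheb (fun _ _ s => if s = St.fr then (1 : ℝ) else 0)
    (half_pos hE0) (V := E) ?_)
  · intro u σ _ hh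
    rw [hsum, abs_sub_comm]
    refine le_trans ?_ (le_abs_self _)
    have h1 : ∑ j, (if σ j = St.fr then (1 : ℝ) else 0)
        = ((Finset.univ.filter fun j => σ j = St.fr).card : ℝ) := by
      rw [Finset.card_filter]; push_cast; rfl
    rw [h1]
    have h2 : ((Finset.univ.filter fun j => σ j = St.fr).card : ℝ) ≤ D := by
      exact_mod_cast hh.le
    linarith
  · rw [← hsum]
    refine le_of_eq (Finset.sum_congr rfl fun j _ => ?_)
    congr 1
    funext u s
    split_ifs <;> norm_num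

end Vale.Agent.P230.H852
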