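import Mathlib

/-!
P230, block G2: crude bound for a shifted Gaussian sum over integers.
-/

namespace Vale.Agent.P230.H852

open Finset Real MeasureTheory

theorem gauss_antitone {a : ℝ} (ha : 0 < a) :
    AntitoneOn (fun x : ℝ => Real.exp (-a * x ^ 2)) (Set.Ici 0) := by
  intro x hx y _ hxy
  apply Real.exp_le_exp.mpr
  have h1 : x ^ 2 ≤ y ^ 2 := pow_le_pow_left₀ hx hxy 2
  nlinarith

theorem half_sum {a x0 : ℝ} (ha : 0 < a) (hx : 0 ≤ x0) (n : ℕ) :
    ∑ i ∈ range n, Real.exp (-a * (x0 + i) ^ 2) ≤ 1 + Real.sqrt (π / a) / 2 := by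
  have hI : IntegrableOn (fun x : ℝ => Real.exp (-a * x ^ 2)) (Set.Ioi 0) :=
    (integrable_exp_neg_mul_sq ha).integrableOn
  rcases n with _ | n
  · simp only [range_zero, sum_empty]; positivity
  · rw [Finset.sum_range_succ']
    have h0 : Real.exp (-a * (x0 + ((0 : ℕ) : ℝ)) ^ 2) ≤ 1 := by
      rw [← Real.exp_zero]
      apply Real.exp_le_exp.mpr
      nlinarith [sq_nonneg (x0 + ((0 : ℕ) : ℝ))]
    have h1 : ∑ i ∈ range n, Real.exp (-a * (x0 + ((i + 1 : ℕ) : ℝ)) ^ 2)
        ≤ ∫ x in x0..(x0 + n), Real.exp (-a * x ^ 2) := by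
      exact AntitoneOn.sum_le_integral (f := fun x : ℝ => Real.exp (-a * x ^ 2))
        ((gauss_antitone ha).mono fun x hx' => le_trans hx hx'.1)
    have h2 : ∫ x in x0..(x0 + n), Real.exp (-a * x ^ 2) ≤ Real.sqrt (π / a) / 2 := by
      rw [← integral_gaussian_Ioi a, intervalIntegral.integral_of_le (by
        have : (0 : ℝ) ≤ n := Nat.cast_nonneg n
        linarith)]
      apply setIntegral_mono_set hI
      · exact Filter.Eventually.of_forall fun x => (Real.exp_pos _).le
      · have hss : Set.Ioc x0 (x0 + n) ⊆ Set.Ioi 0 := fun x hx' => lt_of_le_of_lt hx hx'.1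
        exact hss.eventuallyLE
    have h3 := h1.trans h2
    calc _ ≤ Real.sqrt (π / a) / 2 + 1 := add_le_add h3 h0
      _ = _ := by ring

/-- `∑ exp (-a (k + c)²) ≤ √(π / a) + 2` -/
theorem gsum_le {a : ℝ} (ha : 0 < a) (c : ℝ) (S : Finset ℤ) :
    ∑ k ∈ S, Real.exp (-a * ((k : ℝ) + c) ^ 2) ≤ Real.sqrt (π / a) + 2 := by
  set m : ℤ := ⌈-c⌉ with hm
  have hm0 : 0 ≤ (m : ℝ) + c := by have := Int.le_ceil (-c); linarith
  have hm1 : (m : ℝ) + c < 1 := by have := Int.ceil_lt_add_one (-c); linarith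
  obtain ⟨n, hn⟩ : ∃ n : ℕ, S ⊆ Finset.Ico (m - n) (m + n) := by
    refine ⟨S.sup (fun k => (k - m).natAbs) + 1, fun k hk => ?_⟩
    have h1 : (k - m).natAbs ≤ S.sup (fun k => (k - m).natAbs) :=
      Finset.le_sup (f := fun k : ℤ => (k - m).natAbs) hk
    rw [Finset.mem_Ico]
    omega
  have hsub : ∑ k ∈ S, Real.exp (-a * ((k : ℝ) + c) ^ 2)
      ≤ ∑ k ∈ Finset.Ico (m - n) (m + n), Real.exp (-a * ((k : ℝ) + c) ^ 2) :=
    Finset.sum_le_sum_of_subset_of_nonneg hn fun _ _ _ => (Real.exp_pos _).le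
  have hsplit : ∑ k ∈ Finset.Ico (m - n) (m + n), Real.exp (-a * ((k : ℝ) + c) ^ 2)
      = ∑ i ∈ range n, Real.exp (-a * ((1 - ((m : ℝ) + c)) + i) ^ 2)
        + ∑ i ∈ range n, Real.exp (-a * (((m : ℝ) + c) + i) ^ 2) := by
    have h1 : ∑ k ∈ Finset.Ico (m - n) (m + n), Real.exp (-a * ((k : ℝ) + c) ^ 2)
        = ∑ k ∈ Finset.Ico (m - n) m, Real.exp (-a * ((k : ℝ) + c) ^ 2)
          + ∑ k ∈ Finset.Ico m (m + n), Real.exp (-a * ((k : ℝ) + c) ^ 2) := by
      rw [← Finset.sum_union]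
      · congr 1
        rw [Finset.Ico_union_Ico_eq_Ico] <;> omega
      · exact Finset.Ico_disjoint_Ico_consecutive _ _ _
    rw [h1]
    congr 1
    · refine Finset.sum_nbij' (fun k : ℤ => (m - 1 - k).toNat) (fun i : ℕ => m - 1 - i)
        ?_ ?_ ?_ ?_ ?_
      · intro k hk; simp only [Finset.mem_Ico] at hk; simp only [Finset.mem_range]; omega
      · intro i hi; simp only [Finset.mem_range] at hi; simp only [Finset.mem_Ico]; omega
      · intro k hk; simp only [Finset.mem_Ico] at hk; omega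
      · intro i _; omega
      · intro k hk
        simp only [Finset.mem_Ico] at hk
        have h2 : (((m - 1 - k).toNat : ℕ) : ℝ) = (m : ℝ) - 1 - k := by
          have : (((m - 1 - k).toNat : ℕ) : ℤ) = m - 1 - k := Int.toNat_of_nonneg (by omega)
          exact_mod_cast this
        rw [h2]
        congr 1
        ring
    · refine Finset.sum_nbij' (fun k : ℤ => (k - m).toNat) (fun i : ℕ => m + i)
        ?_ ?_ ?_ ?_ ?_
      · intro k hk; simp only [Finset.mem_Ico] at hk; simp only [Finset.mem_range]; omega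
      · intro i hi; simp only [Finset.mem_range] at hi; simp only [Finset.mem_Ico]; omega
      · intro k hk; simp only [Finset.mem_Ico] at hk; omega
      · intro i _; omega
      · intro k hk
        simp only [Finset.mem_Ico] at hk
        have h2 : (((k - m).toNat : ℕ) : ℝ) = (k : ℝ) - m := by
          have : (((k - m).toNat : ℕ) : ℤ) = k - m := Int.toNat_of_nonneg (by omega)
          exact_mod_cast this
        rw [h2]
        congr 1
        ring
  have e1 := half_sum ha (show 0 ≤ 1 - ((m : ℝ) + c) by linarith) n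
  have e2 := half_sum ha hm0 n
  linarith

end Vale.Agent.P230.H852
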