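import Vale.Agent.P230.H852.Lift
import Vale.Agent.P230.H852.Gsum

/-!
P230, block G2 (e): the additive energy of the folded discrete Gaussian.
-/

namespace Vale.Agent.P230.H852

open Finset Real

variable {A : ℝ} {P : ℕ}

/-- energy = sum of squares of the autocorrelation -/
theorem energy_eq [NeZero P] (g : ZMod P → ℝ) :
    ∑ a : ZMod P, ∑ b : ZMod P, ∑ c : ZMod P, g a * g b * g c * g (b + c - a)
      = ∑ d : ZMod P, (∑ a : ZMod P, g a * g (a + d)) ^ 2 := by
  have h1 : ∀ a : ZMod P, ∑ b : ZMod P, ∑ c : ZMod P, g a * g b * g c * g (b + c - a)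
      = ∑ d : ZMod P, ∑ c : ZMod P, g a * g (a + d) * g c * g (c + d) := by
    intro a
    rw [← Equiv.sum_comp (Equiv.addLeft a)]
    refine Finset.sum_congr rfl fun d _ => Finset.sum_congr rfl fun c _ => ?_
    have : a + d + c - a = c + d := by ring
    simp only [Equiv.coe_addLeft]
    rw [this]
  simp_rw [h1]
  rw [Finset.sum_comm]
  refine Finset.sum_congr rfl fun d _ => ?_
  rw [sq, Finset.sum_mul_sum]
  refine Finset.sum_congr rfl fun a _ => Finset.sum_congr rfl fun c _ => by ring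

theorem del_pos [NeZero P] (hA : 0 < A) : 0 < del A P :=
  div_pos hA (by exact_mod_cast NeZero.pos P)

theorem gs_mul (k e : ℤ) : gs A P k * gs A P (k + e)
    = Real.exp (-(del A P * e) ^ 2 / 4) * Real.exp (-(del A P) ^ 2 * ((k : ℝ) + (e : ℝ) / 2) ^ 2) := by
  unfold gs
  rw [← Real.exp_add, ← Real.exp_add]
  congr 1
  push_cast
  ring

/-- Gaussian sum with `a = δ²` -/
theorem corr_sum [NeZero P] (hA : 0 < A) (e : ℤ) :
    ∑ k ∈ Finset.Ico (-(P : ℤ)) P, gs A P k * gs A P (k + e)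
      ≤ Real.exp (-(del A P * e) ^ 2 / 4) * (Real.sqrt π / del A P + 2) := by
  have hd := del_pos (P := P) hA
  simp_rw [gs_mul]
  rw [← Finset.mul_sum]
  apply mul_le_mul_of_nonneg_left _ (Real.exp_pos _).le
  have := gsum_le (a := del A P ^ 2) (by positivity) ((e : ℝ) / 2) (Finset.Ico (-(P : ℤ)) P)
  refine this.trans (le_of_eq ?_)
  rw [Real.sqrt_div' _ (by positivity), Real.sqrt_sq hd.le]

theorem autocorr_le_aux [NeZero P] (d a : ZMod P) :
    (gs A P (k0 a) + gs A P (k1 a)) * (gs A P (k0 (a + d)) + gs A P (k1 (a + d)))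
      ≤ (gs A P (k0 a) * gs A P (k0 a + ((d.val : ℤ) - 2 * P))
          + gs A P (k1 a) * gs A P (k1 a + ((d.val : ℤ) - 2 * P)))
        + (gs A P (k0 a) * gs A P (k0 a + ((d.val : ℤ) - P))
          + gs A P (k1 a) * gs A P (k1 a + ((d.val : ℤ) - P)))
        + (gs A P (k0 a) * gs A P (k0 a + (d.val : ℤ))
          + gs A P (k1 a) * gs A P (k1 a + (d.val : ℤ)))
        + (gs A P (k0 a) * gs A P (k0 a + ((d.val : ℤ) + P))
          + gs A P (k1 a) * gs A P (k1 a + ((d.val : ℤ) + P))) := by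
  have hp : ∀ k l : ℤ, 0 < gs A P k * gs A P l := fun k l => mul_pos (gs_pos k) (gs_pos l)
  have hval : (a + d).val = (a.val + d.val) % P := ZMod.val_add a d
  have ha : a.val < P := ZMod.val_lt a
  have hd : d.val < P := ZMod.val_lt d
  rcases lt_or_ge (a.val + d.val) P with h | h
  · have h1 : (a + d).val = a.val + d.val := by rw [hval, Nat.mod_eq_of_lt h]
    have e0 : k0 (a + d) = k0 a + (d.val : ℤ) := by simp only [k0, h1]; push_cast; ring
    have e1 : k1 (a + d) = k0 a + ((d.val : ℤ) - P) := by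
      simp only [k0, k1, h1]; push_cast; ring
    have e2 : k0 (a + d) = k1 a + ((d.val : ℤ) + P) := by
      simp only [k0, k1, h1]; push_cast; ring
    have e3 : k1 (a + d) = k1 a + (d.val : ℤ) := by
      simp only [k1, h1]; push_cast; ring
    have x1 := hp (k0 a) (k0 a + ((d.val : ℤ) - 2 * P))
    have x2 := hp (k1 a) (k1 a + ((d.val : ℤ) - 2 * P))
    have x3 := hp (k1 a) (k1 a + ((d.val : ℤ) - P))
    have x4 := hp (k0 a) (k0 a + ((d.val : ℤ) + P))
    have y : (gs A P (k0 a) + gs A P (k1 a)) * (gs A P (k0 (a + d)) + gs A P (k1 (a + d)))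
        = gs A P (k0 a) * gs A P (k0 a + (d.val : ℤ)) + gs A P (k0 a) * gs A P (k0 a + ((d.val : ℤ) - P))
          + gs A P (k1 a) * gs A P (k1 a + ((d.val : ℤ) + P))
          + gs A P (k1 a) * gs A P (k1 a + (d.val : ℤ)) := by
      rw [← e0, ← e1, ← e2, ← e3]; ring
    rw [y]
    linarith
  · have h1 : (a + d).val + P = a.val + d.val := by
      rw [hval, Nat.mod_eq_sub_mod h, Nat.mod_eq_of_lt (by omega)]
      omega
    have h1' : ((a + d).val : ℤ) = a.val + d.val - P := by omega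
    have e0 : k0 (a + d) = k0 a + ((d.val : ℤ) - P) := by simp only [k0, h1']; ring
    have e1 : k1 (a + d) = k0 a + ((d.val : ℤ) - 2 * P) := by
      simp only [k0, k1, h1']; ring
    have e2 : k0 (a + d) = k1 a + (d.val : ℤ) := by
      simp only [k0, k1, h1']; ring
    have e3 : k1 (a + d) = k1 a + ((d.val : ℤ) - P) := by
      simp only [k1, h1']; ring
    have x1 := hp (k1 a) (k1 a + ((d.val : ℤ) - 2 * P))
    have x2 := hp (k0 a) (k0 a + (d.val : ℤ))
    have x3 := hp (k0 a) (k0 a + ((d.val : ℤ) + P))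
    have x4 := hp (k1 a) (k1 a + ((d.val : ℤ) + P))
    have y : (gs A P (k0 a) + gs A P (k1 a)) * (gs A P (k0 (a + d)) + gs A P (k1 (a + d)))
        = gs A P (k0 a) * gs A P (k0 a + ((d.val : ℤ) - P))
          + gs A P (k0 a) * gs A P (k0 a + ((d.val : ℤ) - 2 * P))
          + gs A P (k1 a) * gs A P (k1 a + (d.val : ℤ))
          + gs A P (k1 a) * gs A P (k1 a + ((d.val : ℤ) - P)) := by
      rw [← e0, ← e1, ← e2, ← e3]; ring
    rw [y]
    linarith

/-- the Gaussian factor of the autocorrelation at shift `c` -/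
noncomputable def Ex (c : ℝ) : ℝ := Real.exp (-c ^ 2 / 4)

theorem Ex_pos (c : ℝ) : 0 < Ex c := Real.exp_pos _

theorem autocorr_le [NeZero P] (hA : 0 < A) (d : ZMod P) :
    ∑ a : ZMod P, G A a * G A (a + d) ≤ ((Real.sqrt π / del A P + 2) / NA A P ^ 2)
      * (Ex (del A P * d.val - 2 * A) + Ex (del A P * d.val - A) + Ex (del A P * d.val)
        + Ex (del A P * d.val + A)) := by
  have hN : 0 < NA A P := NA_pos
  have hPA : del A P * P = A := by
    unfold del
    have : (P : ℝ) ≠ 0 := Nat.cast_ne_zero.mpr (NeZero.ne P)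
    field_simp
  have h1 : ∑ a : ZMod P, G A a * G A (a + d)
      = (∑ a : ZMod P, (gs A P (k0 a) + gs A P (k1 a))
          * (gs A P (k0 (a + d)) + gs A P (k1 (a + d)))) / NA A P ^ 2 := by
    rw [Finset.sum_div]
    refine Finset.sum_congr rfl fun a _ => ?_
    simp only [G, q0, q1]
    field_simp
  rw [h1, div_mul_eq_mul_div, div_le_div_iff_of_pos_right (by positivity)]
  refine (Finset.sum_le_sum fun a _ => autocorr_le_aux d a).trans ?_
  rw [Finset.sum_add_distrib, Finset.sum_add_distrib, Finset.sum_add_distrib]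
  rw [sum_lifts (fun k => gs A P k * gs A P (k + ((d.val : ℤ) - 2 * P))),
    sum_lifts (fun k => gs A P k * gs A P (k + ((d.val : ℤ) - P))),
    sum_lifts (fun k => gs A P k * gs A P (k + (d.val : ℤ))),
    sum_lifts (fun k => gs A P k * gs A P (k + ((d.val : ℤ) + P)))]
  have c1 := corr_sum (P := P) hA ((d.val : ℤ) - 2 * P)
  have c2 := corr_sum (P := P) hA ((d.val : ℤ) - P)
  have c3 := corr_sum (P := P) hA (d.val : ℤ)
  have c4 := corr_sum (P := P) hA ((d.val : ℤ) + P)
  have f1 : del A P * (((d.val : ℤ) - 2 * P : ℤ) : ℝ) = del A P * d.val - 2 * A := by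
    push_cast; rw [mul_sub]
    rw [show del A P * (2 * (P : ℝ)) = 2 * (del A P * P) by ring, hPA]
  have f2 : del A P * (((d.val : ℤ) - P : ℤ) : ℝ) = del A P * d.val - A := by
    push_cast; rw [mul_sub, hPA]
  have f3 : del A P * (((d.val : ℤ) : ℤ) : ℝ) = del A P * d.val := by push_cast; ring
  have f4 : del A P * (((d.val : ℤ) + P : ℤ) : ℝ) = del A P * d.val + A := by
    push_cast; rw [mul_add, hPA]
  rw [f1] at c1
  rw [f2] at c2
  rw [f3] at c3
  rw [f4] at c4
  refine (add_le_add (add_le_add (add_le_add c1 c2) c3) c4).trans (le_of_eq ?_)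
  unfold Ex
  ring

theorem Ex_sq (c : ℝ) : Ex c ^ 2 = Real.exp (-c ^ 2 / 2) := by
  unfold Ex
  rw [← Real.exp_nat_mul]
  congr 1
  push_cast
  ring

theorem Ex_mul_le (hA : 0 ≤ A) (x : ℝ) {i j : ℝ} (hij : 1 ≤ |i - j|) :
    Ex (x + i * A) * Ex (x + j * A)
      ≤ Real.exp (-A ^ 2 / 8) * Real.exp (-(x + (i + j) / 2 * A) ^ 2 / 2) := by
  unfold Ex
  rw [← Real.exp_add, ← Real.exp_add]
  apply Real.exp_le_exp.mpr
  have h1 : 1 ≤ (i - j) ^ 2 := by
    rw [← sq_abs]; nlinarith [abs_nonneg (i - j)]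
  nlinarith [mul_le_mul_of_nonneg_right h1 (sq_nonneg A)]

theorem sum_shift_le [NeZero P] (hA : 0 < A) (c : ℝ) :
    ∑ d : ZMod P, Real.exp (-(del A P * d.val + c) ^ 2 / 2) ≤ Real.sqrt (2 * π) / del A P + 2 := by
  have hd := del_pos (P := P) hA
  rw [sum_val (fun i => Real.exp (-(del A P * i + c) ^ 2 / 2))]
  have h1 : ∑ i ∈ range P, Real.exp (-(del A P * i + c) ^ 2 / 2)
      = ∑ k ∈ (range P).map (Nat.castEmbedding : ℕ ↪ ℤ),
        Real.exp (-(del A P ^ 2 / 2) * ((k : ℝ) + c / del A P) ^ 2) := by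
    rw [Finset.sum_map]
    refine Finset.sum_congr rfl fun i _ => ?_
    congr 1
    simp only [Nat.castEmbedding_apply, Int.cast_natCast]
    field_simp
  rw [h1]
  refine (gsum_le (a := del A P ^ 2 / 2) (by positivity) _ _).trans (le_of_eq ?_)
  rw [show π / (del A P ^ 2 / 2) = (2 * π) / del A P ^ 2 by field_simp,
    Real.sqrt_div' _ (by positivity), Real.sqrt_sq hd.le]

theorem sum_diag_le [NeZero P] (hA : 0 < A) :
    ∑ d : ZMod P, (Real.exp (-(del A P * d.val - 2 * A) ^ 2 / 2)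
      + Real.exp (-(del A P * d.val - A) ^ 2 / 2) + Real.exp (-(del A P * d.val) ^ 2 / 2)
      + Real.exp (-(del A P * d.val + A) ^ 2 / 2)) ≤ Real.sqrt (2 * π) / del A P + 2 := by
  have hd := del_pos (P := P) hA
  have hPA : del A P * P = A := by
    unfold del
    have : (P : ℝ) ≠ 0 := Nat.cast_ne_zero.mpr (NeZero.ne P)
    field_simp
  have hg := gsum_le (a := del A P ^ 2 / 2) (by positivity) 0
    (Finset.Ico (-((2 * P : ℕ) : ℤ)) ((2 * P : ℕ) : ℤ))
  rw [show π / (del A P ^ 2 / 2) = (2 * π) / del A P ^ 2 by field_simp,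
    Real.sqrt_div' _ (by positivity), Real.sqrt_sq hd.le] at hg
  refine le_trans (le_of_eq ?_) hg
  rw [sum_Ico_split (2 * P) (fun k => Real.exp (-(del A P ^ 2 / 2) * ((k : ℝ) + 0) ^ 2)),
    two_mul P, Finset.sum_range_add, ← Finset.sum_add_distrib]
  rw [sum_val (fun i : ℕ => Real.exp (-(del A P * i - 2 * A) ^ 2 / 2)
      + Real.exp (-(del A P * i - A) ^ 2 / 2) + Real.exp (-(del A P * i) ^ 2 / 2)
      + Real.exp (-(del A P * i + A) ^ 2 / 2))]
  refine Finset.sum_congr rfl fun i _ => ?_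
  have g1 : -(del A P ^ 2 / 2) * ((((i : ℕ) : ℤ) : ℝ) + 0) ^ 2 = -(del A P * i) ^ 2 / 2 := by
    push_cast; ring
  have g2 : -(del A P ^ 2 / 2) * (((((i : ℕ) : ℤ) - ((P + P : ℕ) : ℤ) : ℤ) : ℝ) + 0) ^ 2
      = -(del A P * i - 2 * A) ^ 2 / 2 := by
    push_cast
    rw [show -(del A P * i - 2 * A) ^ 2 / 2 = -(del A P * i - 2 * (del A P * P)) ^ 2 / 2 by
      rw [hPA]]
    ring
  have g3 : -(del A P ^ 2 / 2) * ((((P + i : ℕ) : ℤ) : ℝ) + 0) ^ 2
      = -(del A P * i + A) ^ 2 / 2 := by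
    push_cast
    rw [show -(del A P * i + A) ^ 2 / 2 = -(del A P * i + del A P * P) ^ 2 / 2 by rw [hPA]]
    ring
  have g4 : -(del A P ^ 2 / 2) * (((((P + i : ℕ) : ℤ) - ((P + P : ℕ) : ℤ) : ℤ) : ℝ) + 0) ^ 2
      = -(del A P * i - A) ^ 2 / 2 := by
    push_cast
    rw [show -(del A P * i - A) ^ 2 / 2 = -(del A P * i - del A P * P) ^ 2 / 2 by rw [hPA]]
    ring
  rw [g1, g2, g3, g4]
  ring

/-- (e) with explicit smallness hypotheses -/
theorem energy_le_of [NeZero P] (hA : 0 < A) (hδ : del A P ≤ 1 / 4000)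
    (h8 : Real.exp (-A ^ 2 / 8) ≤ 1 / 1000)
    (hN : 1 - 1 / 1000 ≤ del A P * NA A P / Real.sqrt (2 * π)) :
    ∑ a : ZMod P, ∑ b : ZMod P, ∑ c : ZMod P, G A a * G A b * G A c * G A (b + c - a)
      ≤ 0.205 * del A P := by
  have hd := del_pos (P := P) hA
  have hNp : 0 < NA A P := NA_pos
  set δ := del A P with hδd
  set N := NA A P with hNd
  rw [energy_eq]
  set K : ℝ := (Real.sqrt π / δ + 2) / N ^ 2 with hK
  have hK0 : 0 ≤ K := by positivity
  set T : ℝ := Real.sqrt (2 * π) / δ + 2 with hT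
  have hT0 : 0 ≤ T := by positivity
  -- pointwise expansion of the square
  have hpt : ∀ d : ZMod P, (∑ a : ZMod P, G A a * G A (a + d)) ^ 2
      ≤ K ^ 2 * ((Real.exp (-(δ * d.val - 2 * A) ^ 2 / 2)
      + Real.exp (-(δ * d.val - A) ^ 2 / 2) + Real.exp (-(δ * d.val) ^ 2 / 2)
      + Real.exp (-(δ * d.val + A) ^ 2 / 2))
      + 2 * Real.exp (-A ^ 2 / 8) * (Real.exp (-(δ * d.val + (-2 + -1) / 2 * A) ^ 2 / 2)
        + Real.exp (-(δ * d.val + (-2 + 0) / 2 * A) ^ 2 / 2)
        + Real.exp (-(δ * d.val + (-2 + 1) / 2 * A) ^ 2 / 2)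
        + Real.exp (-(δ * d.val + (-1 + 0) / 2 * A) ^ 2 / 2)
        + Real.exp (-(δ * d.val + (-1 + 1) / 2 * A) ^ 2 / 2)
        + Real.exp (-(δ * d.val + (0 + 1) / 2 * A) ^ 2 / 2))) := by
    intro d
    have h1 := autocorr_le (P := P) hA d
    have h0 : 0 ≤ ∑ a : ZMod P, G A a * G A (a + d) :=
      Finset.sum_nonneg fun a _ => (mul_pos (G_pos a) (G_pos (a + d))).le
    refine (pow_le_pow_left₀ h0 h1 2).trans ?_
    rw [mul_pow]
    apply mul_le_mul_of_nonneg_left _ (by positivity)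
    set x : ℝ := δ * d.val with hx
    have m1 := Ex_mul_le hA.le x (i := -2) (j := -1) (by norm_num)
    have m2 := Ex_mul_le hA.le x (i := -2) (j := 0) (by norm_num)
    have m3 := Ex_mul_le hA.le x (i := -2) (j := 1) (by norm_num)
    have m4 := Ex_mul_le hA.le x (i := -1) (j := 0) (by norm_num)
    have m5 := Ex_mul_le hA.le x (i := -1) (j := 1) (by norm_num)
    have m6 := Ex_mul_le hA.le x (i := 0) (j := 1) (by norm_num)
    have a1 : x + -2 * A = x - 2 * A := by ring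
    have a2 : x + -1 * A = x - A := by ring
    have a3 : x + 0 * A = x := by ring
    have a4 : x + 1 * A = x + A := by ring
    rw [a1, a2] at m1
    rw [a1, a3] at m2
    rw [a1, a4] at m3
    rw [a2, a3] at m4
    rw [a2, a4] at m5
    rw [a3, a4] at m6
    have s1 := Ex_sq (x - 2 * A)
    have s2 := Ex_sq (x - A)
    have s3 := Ex_sq x
    have s4 := Ex_sq (x + A)
    rw [← s1, ← s2, ← s3, ← s4]
    nlinarith [m1, m2, m3, m4, m5, m6]
  have hsum : ∑ d : ZMod P, (∑ a : ZMod P, G A a * G A (a + d)) ^ 2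
      ≤ K ^ 2 * (T + 12 * Real.exp (-A ^ 2 / 8) * T) := by
    refine (Finset.sum_le_sum fun d _ => hpt d).trans ?_
    rw [← Finset.mul_sum]
    apply mul_le_mul_of_nonneg_left _ (by positivity)
    rw [Finset.sum_add_distrib, ← Finset.mul_sum]
    simp only [Finset.sum_add_distrib]
    have d0 := sum_diag_le (P := P) hA
    simp only [Finset.sum_add_distrib] at d0
    have d1 := sum_shift_le (P := P) hA ((-2 + -1) / 2 * A)
    have d2 := sum_shift_le (P := P) hA ((-2 + 0) / 2 * A)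
    have d3 := sum_shift_le (P := P) hA ((-2 + 1) / 2 * A)
    have d4 := sum_shift_le (P := P) hA ((-1 + 0) / 2 * A)
    have d5 := sum_shift_le (P := P) hA ((-1 + 1) / 2 * A)
    have d6 := sum_shift_le (P := P) hA ((0 + 1) / 2 * A)
    have he : 0 < Real.exp (-A ^ 2 / 8) := Real.exp_pos _
    refine add_le_add d0 ?_
    calc 2 * Real.exp (-A ^ 2 / 8) * _ ≤ 2 * Real.exp (-A ^ 2 / 8) * (6 * T) := by
          apply mul_le_mul_of_nonneg_left _ (by positivity)
          linarith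
      _ = 12 * Real.exp (-A ^ 2 / 8) * T := by ring
  refine hsum.trans ?_
  -- numerics
  have hpi1 := Real.pi_gt_d6
  have hpi2 := Real.pi_lt_d4
  have hs1 : Real.sqrt π ≤ 1.77248 := by
    apply Real.sqrt_le_iff.mpr
    constructor <;> norm_num at hpi2 ⊢
    linarith
  have hs2 : Real.sqrt (2 * π) ≤ 2.50667 := by
    apply Real.sqrt_le_iff.mpr
    constructor <;> norm_num at hpi2 ⊢
    linarith
  have hs3 : (2.5066 : ℝ) ≤ Real.sqrt (2 * π) := by
    apply Real.le_sqrt_of_sq_le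
    norm_num at hpi1 ⊢
    linarith
  have hs0 : 0 < Real.sqrt (2 * π) := by linarith
  have hN1 : (2.504 : ℝ) ≤ δ * N := by
    rw [le_div_iff₀ hs0] at hN
    nlinarith
  have e1 : Real.sqrt π / δ + 2 ≤ 1.773 / δ := by
    rw [le_div_iff₀ hd, add_mul, div_mul_cancel₀ _ hd.ne']
    linarith
  have e2 : T ≤ 2.5072 / δ := by
    rw [hT, le_div_iff₀ hd, add_mul, div_mul_cancel₀ _ hd.ne']
    linarith
  have e3 : K ≤ (1.773 / δ) / N ^ 2 := div_le_div_of_nonneg_right e1 (by positivity)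
  have e4 : 1 / N ≤ δ / 2.504 := by
    rw [div_le_div_iff₀ hNp (by norm_num)]
    linarith
  have e5 : K ≤ 0.28278 * δ := by
    refine e3.trans ?_
    have : (1.773 / δ) / N ^ 2 = (1.773 / δ) * (1 / N) ^ 2 := by field_simp
    rw [this]
    calc (1.773 / δ) * (1 / N) ^ 2 ≤ (1.773 / δ) * (δ / 2.504) ^ 2 := by
          apply mul_le_mul_of_nonneg_left _ (by positivity)
          exact pow_le_pow_left₀ (by positivity) e4 2
      _ = (1.773 / 2.504 ^ 2) * δ := by field_simp
      _ ≤ 0.28278 * δ := by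
          apply mul_le_mul_of_nonneg_right _ hd.le
          norm_num
  have e6 : T + 12 * Real.exp (-A ^ 2 / 8) * T ≤ 2.53729 / δ := by
    calc T + 12 * Real.exp (-A ^ 2 / 8) * T = (1 + 12 * Real.exp (-A ^ 2 / 8)) * T := by ring
      _ ≤ (1 + 12 * (1 / 1000)) * (2.5072 / δ) := by
          apply mul_le_mul _ e2 hT0 (by norm_num)
          linarith
      _ ≤ 2.53729 / δ := by
          rw [← mul_div_assoc]
          apply div_le_div_of_nonneg_right _ hd.le
          norm_num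
  calc K ^ 2 * (T + 12 * Real.exp (-A ^ 2 / 8) * T)
      ≤ (0.28278 * δ) ^ 2 * (2.53729 / δ) := by
        apply mul_le_mul (pow_le_pow_left₀ hK0 e5 2) e6 _ (by positivity)
        have := Real.exp_pos (-A ^ 2 / 8)
        positivity
    _ = (0.28278 ^ 2 * 2.53729) * δ := by field_simp
    _ ≤ 0.205 * δ := by
        apply mul_le_mul_of_nonneg_right _ hd.le
        norm_num

end Vale.Agent.P230.H852
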