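import Vale.Agent.P230.H852.Facts
import Vale.Agent.P230.H852.Energy
import Vale.Agent.P230.H852.BalMass

/-!
P230, block G2: assembly of `S_G2F` from the individual facts.
-/

namespace Vale.Agent.P230.H852

open Finset Real Filter

/-- eventually in `A`, uniformly in `P` -/
def EvA (p : (A : ℝ) → (P : ℕ) → NeZero P → Prop) : Prop :=
  ∃ A0 : ℝ, ∀ A : ℝ, A0 ≤ A → ∀ P : ℕ, ∀ hP : NeZero P, Real.exp (4 * A ^ 2) ≤ P → p A P hP

theorem EvA.and {p q : (A : ℝ) → (P : ℕ) → NeZero P → Prop} (hp : EvA p) (hq : EvA q) :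
    EvA fun A P h => p A P h ∧ q A P h := by
  obtain ⟨a, ha⟩ := hp
  obtain ⟨b, hb⟩ := hq
  exact ⟨max a b, fun A hA P hP h => ⟨ha A ((le_max_left _ _).trans hA) P hP h,
    hb A ((le_max_right _ _).trans hA) P hP h⟩⟩

theorem EvA.mono {p q : (A : ℝ) → (P : ℕ) → NeZero P → Prop} (hp : EvA p)
    (h : ∀ A P hP, p A P hP → q A P hP) : EvA q := by
  obtain ⟨a, ha⟩ := hp
  exact ⟨a, fun A hA P hP hh => h A P hP (ha A hA P hP hh)⟩

theorem evA_of_ev {p : ℝ → Prop} (h : ∀ᶠ A in atTop, p A) : EvA fun A _ _ => p A := by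
  obtain ⟨a, ha⟩ := Filter.eventually_atTop.mp h
  exact ⟨a, fun A hA _ _ _ => ha A hA⟩

/-- `δ ≤ A exp (-4 A²)` -/
theorem del_le {A : ℝ} {P : ℕ} (hA : 0 ≤ A) (hP : Real.exp (4 * A ^ 2) ≤ P) :
    del A P ≤ A * Real.exp (-(4 * A ^ 2)) := by
  unfold del
  have h0 : 0 < Real.exp (4 * A ^ 2) := Real.exp_pos _
  rw [Real.exp_neg, ← div_eq_mul_inv]
  exact div_le_div_of_nonneg_left hA h0 hP

/-- `exp (-A²/8) → 0` -/
theorem ev_exp8 {ε : ℝ} (hε : 0 < ε) : ∀ᶠ A : ℝ in atTop, Real.exp (-A ^ 2 / 8) ≤ ε := by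
  have h1 : Tendsto (fun A : ℝ => A ^ 2 / 8) atTop atTop :=
    (tendsto_pow_atTop (by norm_num : (2 : ℕ) ≠ 0)).atTop_div_const (by norm_num)
  have h2 : Tendsto (fun A : ℝ => Real.exp (-(A ^ 2 / 8))) atTop (nhds 0) :=
    Real.tendsto_exp_neg_atTop_nhds_zero.comp h1
  filter_upwards [h2.eventually (ge_mem_nhds hε)] with A hA
  rw [show -A ^ 2 / 8 = -(A ^ 2 / 8) by ring]
  exact hA

/-- `δ ≤ exp (-A²)` and `δ ≤ ε` -/
theorem evA_del {ε : ℝ} (hε : 0 < ε) :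
    EvA fun A P _ => del A P ≤ ε ∧ del A P ≤ Real.exp (-A ^ 2) := by
  obtain ⟨a, ha⟩ := Filter.eventually_atTop.mp (ev_exp8 hε)
  refine ⟨max a 1, fun A hA P _ hP => ?_⟩
  have hA1 : 1 ≤ A := (le_max_right _ _).trans hA
  have hAa : a ≤ A := (le_max_left _ _).trans hA
  have h1 := del_le (by linarith) hP
  have h2 : A ≤ Real.exp (A ^ 2) := by
    have := Real.add_one_le_exp (A ^ 2)
    nlinarith
  have h3 : A * Real.exp (-(4 * A ^ 2)) ≤ Real.exp (-(3 * A ^ 2)) := by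
    calc A * Real.exp (-(4 * A ^ 2)) ≤ Real.exp (A ^ 2) * Real.exp (-(4 * A ^ 2)) :=
          mul_le_mul_of_nonneg_right h2 (Real.exp_pos _).le
      _ = Real.exp (-(3 * A ^ 2)) := by rw [← Real.exp_add]; congr 1; ring
  have h4 : Real.exp (-(3 * A ^ 2)) ≤ Real.exp (-A ^ 2 / 8) :=
    Real.exp_le_exp.mpr (by nlinarith [sq_nonneg A])
  have h5 : Real.exp (-(3 * A ^ 2)) ≤ Real.exp (-A ^ 2) :=
    Real.exp_le_exp.mpr (by nlinarith [sq_nonneg A])
  exact ⟨(h1.trans h3).trans (h4.trans (ha A hAa)), (h1.trans h3).trans h5⟩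

/-- assembly -/
theorem s_G2F_of
    (ha1 : EvA fun A P _ => 1 - 2 * Real.exp (-A ^ 2 / 2) ≤ del A P * NA A P / Real.sqrt (2 * π))
    (ha2 : EvA fun A P _ => del A P * NA A P / Real.sqrt (2 * π) ≤ 1 + Real.exp (-A ^ 2))
    (hb : EvA fun A P _ =>
      |(∑ k ∈ Finset.Ico (-(P : ℤ)) P, (del A P * k) ^ 2 * gs A P k) / NA A P - 1|
        ≤ 2 * A ^ 2 * Real.exp (-A ^ 2 / 2))
    (hc : EvA fun A P _ =>
      (∑ k ∈ Finset.Ico (-(P : ℤ)) P, (del A P * k) ^ 4 * gs A P k) / NA A P ≤ 4)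
    (hd : EvA fun A P _ =>
      ∑ u : ZMod P, G A u * (Real.log (G A u) + Real.log (NA A P)) ^ 2 ≤ 4)
    (hf : ∃ c C : ℝ, 0 < c ∧ 0 < C ∧ EvA fun A P _ =>
      c * Real.exp (-A ^ 2 / 8) / A ≤ HH A P ∧ HH A P ≤ C * A ^ 2 * Real.exp (-A ^ 2 / 8)) :
    S_G2F := by
  obtain ⟨c1, C1, hc1, hC1, hf⟩ := hf
  have hall := ha1.and (ha2.and (hb.and (hc.and (hd.and (hf.and ((evA_del
    (show (0 : ℝ) < 1 / 4000 by norm_num)).and ((evA_of_ev (ev_exp8
      (show (0 : ℝ) < 1 / 8000 by norm_num))).and (evA_of_ev (eventually_ge_atTop 2)))))))))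
  obtain ⟨A0, hA0⟩ := hall
  refine ⟨min c1 (2 / (3 * Real.exp 1)), max C1 6, max A0 2, lt_min hc1 (by positivity),
    lt_max_of_lt_left hC1, by positivity, fun A hA P inst hP => ?_⟩
  obtain ⟨h1, h2, h3, h4, h5, h6, h7, h8, h9⟩ := hA0 A ((le_max_left _ _).trans hA) P inst hP
  have hApos : 0 < A := by linarith
  have hE2 : Real.exp (-A ^ 2 / 2) ≤ 1 / 8000 :=
    (Real.exp_le_exp.mpr (by nlinarith [sq_nonneg A])).trans h8
  have hE1 : Real.exp (-A ^ 2) ≤ 1 / 8000 :=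
    (Real.exp_le_exp.mpr (by nlinarith [sq_nonneg A])).trans h8
  have hs0 : 0 < Real.sqrt (2 * π) := Real.sqrt_pos.mpr (by positivity)
  have hs1 : (2 : ℝ) ≤ Real.sqrt (2 * π) := by
    apply Real.le_sqrt_of_sq_le
    have := Real.pi_gt_three
    linarith
  have hs2 : Real.sqrt (2 * π) ≤ 2.6 := by
    apply Real.sqrt_le_iff.mpr
    refine ⟨by norm_num, ?_⟩
    have := Real.pi_lt_d2
    norm_num at this ⊢
    linarith
  have hN1 : 1 ≤ del A P * NA A P := by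
    rw [le_div_iff₀ hs0] at h1
    nlinarith
  have hN2 : del A P * NA A P ≤ 3 := by
    rw [div_le_iff₀ hs0] at h2
    nlinarith
  have hE8 : 0 < Real.exp (-A ^ 2 / 8) := Real.exp_pos _
  refine ⟨h1, h2, h3, h4, h5, ?_, ?_, ?_, ?_, ?_⟩
  · exact energy_le_of hApos h7.1 (h8.trans (by norm_num)) (by linarith)
  · refine le_trans ?_ h6.1
    apply div_le_div_of_nonneg_right _ hApos.le
    exact mul_le_mul_of_nonneg_right (min_le_left _ _) hE8.le
  · refine h6.2.trans ?_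
    apply mul_le_mul_of_nonneg_right _ hE8.le
    exact mul_le_mul_of_nonneg_right (le_max_left _ _) (by positivity)
  · intro w hw1 hw2
    have hw0 : 0 < w := lt_of_lt_of_le (Real.exp_pos _) hw1
    refine le_trans ?_ (bal_bounds (P := P) h9 hw0 hw2 (h7.2.trans hw1) hN1 hN2).1
    apply mul_le_mul_of_nonneg_right _ hE8.le
    exact mul_le_mul_of_nonneg_right (min_le_right _ _) hw0.le
  · intro w hw1 hw2
    have hw0 : 0 < w := lt_of_lt_of_le (Real.exp_pos _) hw1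
    refine (bal_bounds (P := P) h9 hw0 hw2 (h7.2.trans hw1) hN1 hN2).2.trans ?_
    apply mul_le_mul_of_nonneg_right _ hE8.le
    exact mul_le_mul_of_nonneg_right (le_max_right _ _) hw0.le

end Vale.Agent.P230.H852
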