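import Vale.Agent.P230.H852.G2
import Vale.Agent.P230.H706.Ent

/-!
P230, block G2: `S_G2F` from (a), (b), (c), (d); the entropy facts (f) come from helper706.
-/

namespace Vale.Agent.P230.H852

open Finset Real Filter

theorem s_G2F_of4
    (ha1 : EvA fun A P _ => 1 - 2 * Real.exp (-A ^ 2 / 2) ≤ del A P * NA A P / Real.sqrt (2 * π))
    (ha2 : EvA fun A P _ => del A P * NA A P / Real.sqrt (2 * π) ≤ 1 + Real.exp (-A ^ 2))
    (hb : EvA fun A P _ =>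
      |(∑ k ∈ Finset.Ico (-(P : ℤ)) P, (del A P * k) ^ 2 * gs A P k) / NA A P - 1|
        ≤ 2 * A ^ 2 * Real.exp (-A ^ 2 / 2))
    (hc : EvA fun A P _ =>
      (∑ k ∈ Finset.Ico (-(P : ℤ)) P, (del A P * k) ^ 4 * gs A P k) / NA A P ≤ 4)
    (hd : EvA fun A P _ =>
      ∑ u : ZMod P, G A u * (Real.log (G A u) + Real.log (NA A P)) ^ 2 ≤ 4) :
    S_G2F := by
  refine s_G2F_of ha1 ha2 hb hc hd ⟨1 / 144, 9, by norm_num, by norm_num, ?_⟩
  obtain ⟨a1, h1⟩ := ha1.and (ha2.and hb)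
  refine ⟨max a1 20, fun A hA P inst hP => ?_⟩
  obtain ⟨e1, e2, e3⟩ := h1 A ((le_max_left _ _).trans hA) P inst hP
  have hA20 : 20 ≤ A := (le_max_right _ _).trans hA
  have hP4 : 4 * A ^ 2 ≤ P := by
    have := Real.add_one_le_exp (4 * A ^ 2)
    linarith
  exact ⟨Vale.Agent.P230.H706.ent_lo hA20 hP4 e1 e2 e3,
    Vale.Agent.P230.H706.ent_hi hA20 e1 e2 e3⟩

end Vale.Agent.P230.H852
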