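import Vale.Agent.P230.H852.G2b
import Vale.Agent.P230.R2.Norm

/-!
P230, block G2: `S_G2F` from (c), (d); (a), (b) come from helper925 (`R2/Norm.lean`).
-/

namespace Vale.Agent.P230.H852

open Finset Real Filter

theorem s_G2F_of_cd
    (hc : EvA fun A P _ =>
      (∑ k ∈ Finset.Ico (-(P : ℤ)) P, (del A P * k) ^ 4 * gs A P k) / NA A P ≤ 4)
    (hd : EvA fun A P _ =>
      ∑ u : ZMod P, G A u * (Real.log (G A u) + Real.log (NA A P)) ^ 2 ≤ 4) :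
    S_G2F :=
  s_G2F_of4 ⟨1, fun _ hA _ _ hP => Vale.Agent.P230.R2.norm_lo hA hP⟩
    ⟨1, fun _ hA _ _ hP => Vale.Agent.P230.R2.norm_hi hA hP⟩
    ⟨2, fun _ hA _ _ hP => Vale.Agent.P230.R2.mom2 hA hP⟩ hc hd

end Vale.Agent.P230.H852
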