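import Vale.Agent.P230.H852.Lift

/-!
P230, block G2 (d): the second moment of the log-weight, from the fourth moment.
-/

namespace Vale.Agent.P230.H852

open Finset Real

variable {A : ℝ} {P : ℕ}

theorem log_sq_le {x y : ℝ} (hx : 0 ≤ x) (hy : 0 ≤ y) :
    (Real.log (Real.exp (-x / 2) + Real.exp (-y / 2))) ^ 2 ≤ 1 + x ^ 2 / 4 := by
  have hx1 : Real.exp (-x / 2) ≤ 1 := Real.exp_le_one_iff.mpr (by linarith)
  have hy1 : Real.exp (-y / 2) ≤ 1 := Real.exp_le_one_iff.mpr (by linarith)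
  have hx0 := Real.exp_pos (-x / 2)
  have hy0 := Real.exp_pos (-y / 2)
  have h1 : Real.log (Real.exp (-x / 2) + Real.exp (-y / 2)) ≤ 1 := by
    have : Real.log (Real.exp (-x / 2) + Real.exp (-y / 2)) ≤ Real.log 2 :=
      Real.log_le_log (by positivity) (by linarith)
    have h2 := Real.log_two_lt_d9
    linarith
  have h2 : -(x / 2) ≤ Real.log (Real.exp (-x / 2) + Real.exp (-y / 2)) := by
    rw [Real.le_log_iff_exp_le (by positivity), show -(x / 2) = -x / 2 by ring]
    linarith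
  rcases le_total 0 (Real.log (Real.exp (-x / 2) + Real.exp (-y / 2))) with h | h
  · nlinarith [sq_nonneg x]
  · nlinarith [sq_nonneg x]

theorem log2_of_mom4 [NeZero P]
    (h4 : (∑ k ∈ Finset.Ico (-(P : ℤ)) P, (del A P * k) ^ 4 * gs A P k) / NA A P ≤ 4) :
    ∑ u : ZMod P, G A u * (Real.log (G A u) + Real.log (NA A P)) ^ 2 ≤ 4 := by
  have hN : 0 < NA A P := NA_pos
  have h1 : ∀ u : ZMod P, G A u * (Real.log (G A u) + Real.log (NA A P)) ^ 2
      ≤ G A u * 1 + 1 / 4 * (q0 A u * (fun k : ℤ => (del A P * k) ^ 4) (k0 u)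
        + q1 A u * (fun k : ℤ => (del A P * k) ^ 4) (k1 u)) := by
    intro u
    have hG : Real.log (G A u) + Real.log (NA A P)
        = Real.log (Real.exp (-(del A P * k0 u) ^ 2 / 2) + Real.exp (-(del A P * k1 u) ^ 2 / 2)) := by
      rw [← Real.log_mul (G_pos u).ne' hN.ne']
      congr 1
      simp only [G, q0, q1]
      rw [← add_div, div_mul_cancel₀ _ hN.ne']
      rfl
    rw [hG]
    have e0 := log_sq_le (sq_nonneg (del A P * (k0 u : ℝ))) (sq_nonneg (del A P * (k1 u : ℝ)))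
    have e1 := log_sq_le (sq_nonneg (del A P * (k1 u : ℝ))) (sq_nonneg (del A P * (k0 u : ℝ)))
    rw [add_comm (Real.exp (-(del A P * (k1 u : ℝ)) ^ 2 / 2))] at e1
    have p0 := (q0_pos (A := A) u).le
    have p1 := (q1_pos (A := A) u).le
    have m0 := mul_le_mul_of_nonneg_left e0 p0
    have m1 := mul_le_mul_of_nonneg_left e1 p1
    have hGd : G A u = q0 A u + q1 A u := rfl
    rw [hGd]
    simp only
    nlinarith [m0, m1]
  refine (Finset.sum_le_sum fun u _ => h1 u).trans ?_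
  rw [Finset.sum_add_distrib, ← Finset.mul_sum, sum_q (fun k : ℤ => (del A P * k) ^ 4)]
  simp only [mul_one, sum_G]
  linarith

end Vale.Agent.P230.H852
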